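import Vale.Agent.P257.C.Cells
import Mathlib.CategoryTheory.Monoidal.Mon
import Mathlib.Tactic.LinearCombination
import Mathlib.RingTheory.Ideal.Span
import Mathlib.RingTheory.Coprime.Basic
import Mathlib.RingTheory.Int.Basic

/-!
# P257, block DET-T: the coefficients of a ring object

* `RegSeq p A` : a graded ring with a regular sequence `v 0 = p, v 1, …` and the ideals `I h`;
* `Coef c R G` : the homotopy groups of the monoid `R` on even cells are given by `G`, up to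
  integers prime to `p`; `p` is bijective on the odd ones.
-/

open CategoryTheory MonoidalCategory Limits MonObj

universe v u w

set_option linter.unusedSectionVars false

namespace Vale.Agent.P257.L

open Vale.Agent.P257.C

/-- a graded ring with a regular sequence -/
structure RegSeq (p : ℕ) (A : Type w) [CommRing A] where
  /-- the elements of degree `2 n` -/
  gr : ℤ → AddSubgroup A
  /-- the ideals `(v 0, …, v (h - 1))` -/
  I : ℕ → Ideal A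
  /-- the sequence -/
  v : ℕ → A
  I_zero : I 0 = ⊥
  v_zero : v 0 = p
  le_succ (h : ℕ) : I h ≤ I (h + 1)
  v_mem (h : ℕ) : v h ∈ I (h + 1)
  div {h : ℕ} {n : ℤ} {a : A} : a ∈ gr n → a ∈ I (h + 1) →
    ∃ b ∈ gr (n - ((p : ℤ) ^ h - 1)), a - b * v h ∈ I h
  reg {h : ℕ} {n : ℤ} {a : A} : a ∈ gr n → a * v h ∈ I h → a ∈ I h
  ne (h : ℕ) : v h ∉ I h

theorem exists_bezout {p : ℕ} (hp : p.Prime) {n : ℤ} (hn : ¬ (p : ℤ) ∣ n) :
    ∃ a b : ℤ, a * n + b * p = 1 :=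
  ((Int.prime_iff_natAbs_prime.2 (by simpa using hp)).coprime_iff_not_dvd.2 hn).symm

theorem not_dvd_mul {p : ℕ} (hp : p.Prime) {n m : ℤ} (hn : ¬ (p : ℤ) ∣ n) (hm : ¬ (p : ℤ) ∣ m) :
    ¬ (p : ℤ) ∣ n * m := fun h =>
  ((Int.prime_iff_natAbs_prime.2 (by simpa using hp)).dvd_or_dvd h).elim hn hm

namespace RegSeq

variable {p : ℕ} {A : Type w} [CommRing A] (G : RegSeq p A)

theorem p_mem {h : ℕ} (hh : 1 ≤ h) : (p : A) ∈ G.I h := by
  induction h, hh using Nat.le_induction with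
  | base => exact G.v_zero ▸ G.v_mem 0
  | succ h _ ih => exact G.le_succ h ih

theorem mem_of_zsmul (hp : p.Prime) {h : ℕ} (hh : 1 ≤ h) {n : ℤ} (hn : ¬ (p : ℤ) ∣ n) {a : A}
    (ha : n • a ∈ G.I h) : a ∈ G.I h := by
  obtain ⟨s, t, e⟩ := exists_bezout hp hn
  have : a = s • n • a + (t • a) * p := by
    rw [smul_smul, smul_mul_assoc, mul_comm a, ← nsmul_eq_mul, ← natCast_zsmul, smul_smul,
      ← add_smul, e, one_smul]
  rw [this]
  exact add_mem (zsmul_mem ha s) (Ideal.mul_mem_left _ _ (G.p_mem hh))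

end RegSeq

variable {C : Type u} [Category.{v} C] [Preadditive C] [MonoidalCategory C]

/-- The homotopy groups of `R`, up to integers prime to `p`. -/
structure Coef (c : Cells C ℤ) (R : C) [MonObj R] {p : ℕ} {A : Type w} [CommRing A]
    (G : RegSeq p A) where
  /-- `x` is a class of degree `2 n` with value `a` -/
  Cl : ℤ → ∀ {P : C}, (P ⟶ R) → A → Prop
  iso {n : ℤ} {P P' : C} {x : P ⟶ R} {a : A} (e : P' ≅ P) : Cl n x a → Cl n (e.hom ≫ x) a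
  deg {n : ℤ} {P : C} {x : P ⟶ R} {a : A} : Cl n x a → a ∈ G.gr n
  lin (n : ℤ) (x x' : c.obj (2 * n) ⟶ R) :
    ∃ a a', ∀ m m' : ℤ, Cl n (m • x + m' • x') (m • a + m' • a')
  uniq {n : ℤ} {P : C} {x : P ⟶ R} {a a' : A} : Cl n x a → Cl n x a' →
    ∃ m m' : ℤ, ¬ (p : ℤ) ∣ m ∧ ¬ (p : ℤ) ∣ m' ∧ m • a = m' • a'
  mul {n n' k : ℤ} {P P' : C} {x : P ⟶ R} {x' : P' ⟶ R} {a a' : A} (h : n + n' = k) :
    Cl n x a → Cl n' x' a' → Cl k ((x ⊗ₘ x') ≫ μ[R]) (a * a')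
  eq_zero {n : ℤ} {x : c.obj (2 * n) ⟶ R} : Cl n x 0 → x = 0
  occ {n : ℤ} {a : A} : a ∈ G.gr n → ∃ x : c.obj (2 * n) ⟶ R, Cl n x a
  odd_tf (n : ℤ) (x : c.obj (2 * n + 1) ⟶ R) : (p : ℤ) • x = 0 → x = 0
  odd_div (n : ℤ) (x : c.obj (2 * n + 1) ⟶ R) : ∃ y, x = (p : ℤ) • y

namespace Coef

variable {c : Cells C ℤ} {R : C} [MonObj R] {p : ℕ} {A : Type w} [CommRing A] {G : RegSeq p A}
  (K : Coef c R G) {h : ℕ} {n : ℤ} {P : C}

/-- `x` belongs to `I h` -/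
def Mem (h : ℕ) (n : ℤ) {P : C} (x : P ⟶ R) : Prop := ∃ a ∈ G.I h, K.Cl n x a

/-- `x` is a unit multiple of `v h` modulo `I h` -/
def IsV (h : ℕ) {P : C} (x : P ⟶ R) : Prop :=
  ∃ (a : A) (u : ℤ), K.Cl ((p : ℤ) ^ h - 1) x a ∧ ¬ (p : ℤ) ∣ u ∧ a - u • G.v h ∈ G.I h

theorem lin₂ (n : ℤ) (x x' : c.obj (2 * n) ⟶ R) : ∃ a a', K.Cl n x a ∧ K.Cl n x' a' ∧
    ∀ m m' : ℤ, K.Cl n (m • x + m' • x') (m • a + m' • a') := by
  obtain ⟨a, a', k⟩ := K.lin n x x'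
  exact ⟨a, a', by simpa using k 1 0, by simpa using k 0 1, k⟩

variable {K}

theorem IsV.iso {P' : C} {x : P ⟶ R} (hx : K.IsV h x) (e : P' ≅ P) : K.IsV h (e.hom ≫ x) :=
  hx.imp fun _ k => k.imp fun _ l => ⟨K.iso e l.1, l.2⟩

variable (hp : p.Prime)
include hp

theorem Mem.of_cl (hh : 1 ≤ h) {x : P ⟶ R} (hx : K.Mem h n x) {a : A} (ha : K.Cl n x a) :
    a ∈ G.I h := by
  obtain ⟨b, hb, k⟩ := hx
  obtain ⟨m, m', h1, -, e⟩ := K.uniq ha k
  exact G.mem_of_zsmul hp hh h1 (e ▸ zsmul_mem hb m')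

variable (K) in
include K in
theorem even_tf (x : c.obj (2 * n) ⟶ R) (hx : (p : ℤ) • x = 0) : x = 0 := by
  obtain ⟨a, a', h1, -, k⟩ := K.lin₂ n x x
  have h2 := k p 0
  have h3 := k 0 0
  simp only [hx, zero_smul, add_zero] at h2 h3
  obtain ⟨m, m', h4, -, e⟩ := K.uniq h2 h3
  have h5 : m • a = 0 := by
    have := G.reg (h := 0) (zsmul_mem (K.deg h1) m) (by
      rw [G.v_zero, G.I_zero, Ideal.mem_bot, smul_mul_assoc, mul_comm, ← nsmul_eq_mul,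
        ← natCast_zsmul, e, smul_zero])
    rwa [G.I_zero, Ideal.mem_bot] at this
  have h6 := k m 0
  simp only [h5, zero_smul, add_zero] at h6
  obtain ⟨s, t, e⟩ := exists_bezout hp h4
  rw [← one_smul ℤ x, ← e, add_smul, mul_smul, mul_smul, K.eq_zero h6, hx, smul_zero, smul_zero,
    add_zero]

theorem mem_one_iff (z : c.obj (2 * n) ⟶ R) : K.Mem 1 n z ↔ ∃ w, z = (p : ℤ) • w := by
  constructor
  · rintro ⟨a, ha, k⟩
    obtain ⟨b, hb, e⟩ := G.div (K.deg k) ha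
    rw [G.I_zero, Ideal.mem_bot, G.v_zero, sub_eq_zero] at e
    obtain ⟨w, hw⟩ := K.occ (n := n) (by simpa using hb)
    obtain ⟨a₁, a₂, h1, h2, l⟩ := K.lin₂ n z w
    obtain ⟨m₁, m₁', k1, -, e1⟩ := K.uniq h1 k
    obtain ⟨m₂, m₂', -, k2, e2⟩ := K.uniq h2 hw
    have h3 := l (m₁ * m₂') (-(m₁' * p * m₂))
    have h4 : (m₁ * m₂') • a₁ + (-(m₁' * p * m₂)) • a₂ = 0 := by
      simp only [zsmul_eq_mul] at e1 e2 ⊢
      push_cast
      linear_combination (m₂' : A) * e1 - (m₁' * p : A) * e2 + (m₁' * m₂' : A) * e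
    rw [h4] at h3
    have h5 := K.eq_zero h3
    obtain ⟨s, t, e⟩ := exists_bezout hp (not_dvd_mul hp k1 k2)
    refine ⟨(s * (m₁' * m₂)) • w + t • z, ?_⟩
    rw [neg_smul, add_neg_eq_zero] at h5
    rw [smul_add, smul_smul, smul_smul, show (p : ℤ) * (s * (m₁' * m₂)) = s * (m₁' * p * m₂) by ring,
      mul_smul s, ← h5, smul_smul, ← add_smul, mul_comm (p : ℤ), e, one_smul]
  · rintro ⟨w, rfl⟩
    obtain ⟨a, a', -, -, k⟩ := K.lin₂ n w w
    refine ⟨(p : ℤ) • a, ?_, by simpa using k p 0⟩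
    rw [natCast_zsmul, nsmul_eq_mul]
    exact Ideal.mul_mem_right _ _ (G.p_mem le_rfl)

variable (hh : 1 ≤ h) {x : P ⟶ R} (hx : K.IsV h x)
include hh hx

theorem IsV.not_mem : ¬ K.Mem h ((p : ℤ) ^ h - 1) x := fun k => by
  obtain ⟨a, u, h1, h2, h3⟩ := hx
  refine G.ne h (G.mem_of_zsmul hp hh h2 ?_)
  simpa using sub_mem (k.of_cl hp hh h1) h3

variable {m : ℤ} (hm : m + ((p : ℤ) ^ h - 1) = n) (e : c.obj (2 * n) ≅ c.obj (2 * m) ⊗ P)
include hm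

theorem IsV.reg (w : c.obj (2 * m) ⟶ R) (k : K.Mem h n (e.hom ≫ (w ⊗ₘ x) ≫ μ[R])) :
    K.Mem h m w := by
  obtain ⟨a, u, h1, h2, h3⟩ := hx
  obtain ⟨b, -, hb, -⟩ := K.lin₂ m w w
  have h4 := k.of_cl hp hh (K.iso e (K.mul hm hb h1))
  refine ⟨b, G.reg (K.deg hb) (G.mem_of_zsmul hp hh h2 ?_), hb⟩
  have : u • (b * G.v h) = b * a - b * (a - u • G.v h) := by
    simp only [zsmul_eq_mul]
    ring
  rw [this]
  exact sub_mem h4 (Ideal.mul_mem_left _ _ h3)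

theorem IsV.mem_succ_iff [MonoidalPreadditive C] (z : c.obj (2 * n) ⟶ R) :
    K.Mem (h + 1) n z ↔ ∃ w : c.obj (2 * m) ⟶ R, K.Mem h n (z - e.hom ≫ (w ⊗ₘ x) ≫ μ[R]) := by
  obtain ⟨a, u, h1, h2, h3⟩ := hx
  constructor
  · rintro ⟨d, hd, k⟩
    obtain ⟨b, hb, e0⟩ := G.div (K.deg k) hd
    obtain ⟨w, hw⟩ := K.occ (n := m) (by rwa [← hm, add_sub_cancel_right] at hb)
    obtain ⟨a₁, a₂, k1, k2, l⟩ := K.lin₂ n z (e.hom ≫ (w ⊗ₘ x) ≫ μ[R])
    obtain ⟨m₁, m₁', l1, -, e1⟩ := K.uniq k1 k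
    obtain ⟨m₂, m₂', -, l2, e2⟩ := K.uniq k2 (K.iso e (K.mul hm hw h1))
    obtain ⟨s, t, e3⟩ := exists_bezout hp (not_dvd_mul hp (not_dvd_mul hp l1 l2) h2)
    refine ⟨(s * m₁' * m₂) • w, (1 : ℤ) • a₁ + (-(s * m₁' * m₂)) • a₂, G.mem_of_zsmul hp hh l1 ?_, ?_⟩
    · have e4 : ((s * (m₁ * m₂' * u) + t * p : ℤ) : A) = 1 := by rw [e3, Int.cast_one]
      have : m₁ • ((1 : ℤ) • a₁ + (-(s * m₁' * m₂)) • a₂) = m₁' • (d - b * G.v h) -
          (m₁ * s * m₁' * m₂') • b * (a - u • G.v h) + (t * m₁') • (b * G.v h) * p := by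
        simp only [zsmul_eq_mul] at e1 e2 ⊢
        push_cast at e4 ⊢
        linear_combination e1 - (m₁ * s * m₁' : A) * e2 - (m₁' * b * G.v h) * e4
      rw [this]
      exact add_mem (sub_mem (zsmul_mem e0 _) (Ideal.mul_mem_left _ _ h3))
        (Ideal.mul_mem_left _ _ (G.p_mem hh))
    · have := l 1 (-(s * m₁' * m₂))
      rwa [one_smul, neg_smul, ← sub_eq_add_neg, ← Preadditive.comp_zsmul, ← Preadditive.zsmul_comp,
        show ∀ r : ℤ, r • (w ⊗ₘ x) = (r • w) ⊗ₘ x from fun r => by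
          rw [tensorHom_def, tensorHom_def, ← Preadditive.zsmul_comp]
          exact congrArg (· ≫ _) (tensorRight P).map_zsmul.symm] at this
  · rintro ⟨w, k⟩
    obtain ⟨b, -, hb, -⟩ := K.lin₂ m w w
    obtain ⟨a₁, a₂, k1, k2, l⟩ := K.lin₂ n z (e.hom ≫ (w ⊗ₘ x) ≫ μ[R])
    have h4 : a₁ - a₂ ∈ G.I h := k.of_cl hp hh (by simpa [sub_eq_add_neg] using l 1 (-1))
    have h5 : a ∈ G.I (h + 1) := by
      simpa using add_mem (G.le_succ h h3) (zsmul_mem (G.v_mem h) u)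
    have h6 : a₂ ∈ G.I (h + 1) := Mem.of_cl hp (by omega)
      ⟨_, Ideal.mul_mem_left _ b h5, K.iso e (K.mul hm hb h1)⟩ k2
    exact ⟨a₁, by simpa using add_mem (G.le_succ h h4) h6, k1⟩

end Coef

end Vale.Agent.P257.L
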