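import Vale.Agent.P257.L.Coef
import Vale.Agent.P257.Det.RepT
import Vale.Agent.P257.H702.RegMU
import Vale.Agent.P251.M.BGlueD
import Vale.Agent.P251.F.Height

/-!
# P257, block DET-T: the regular sequence `p, v_1, v_2, …` in the coefficients of `MU`

* `regSeq E hp hZ hr : RegSeq p E.A` for a Thom theory `E`;
* `EMU F e` : the Thom theory of `MU`, with `EMU_zsmul`, `EMU_qData`, `EMU_isReg`.
-/

open CategoryTheory MonoidalCategory Limits Pretriangulated

universe v u

set_option linter.unusedSectionVars false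

noncomputable section

namespace Vale.Agent.P257.L

open Vale.Agent.P251 Vale.Agent.P251.G Vale.Agent.P251.G.LC Vale.Agent.P251.I Vale.Agent.P251.M
  Vale.Agent.P251.T Vale.Agent.P251.S Vale.Agent.P251.F Vale.Agent.P251.Q

section theory

variable (E : ThomTheory.{v}) (p : ℕ)

/-- regularity of the sequence `p, v_1, v_2, …` on homogeneous elements -/
def IsReg : Prop := ∀ (h : ℕ) (n : ℤ) (a : E.A), a ∈ E.degA n →
  a * vF p E.o.law.toFG h ∈ IF p E.o.law.toFG h → a ∈ IF p E.o.law.toFG h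

/-- the homogeneous components of the coefficients -/
def projA (k : ℤ) : E.A →+ E.A := E.proj (𝟙_ LC) k

theorem vF_deg (h : ℕ) : vF p E.o.law.toFG h ∈ E.degA (1 - (p : ℤ) ^ h) := by
  have := coeff_multSeries_mem (isMulGr_degA E.toMultTheory) (F := E.o.law.toFG)
    (Q.homPS_law E.o) p (p ^ h)
  rwa [Nat.cast_pow] at this

variable {E p}

theorem projA_mul {k l m : ℤ} (h : l + m = k) (a : E.A) {x : E.A} (hx : x ∈ E.degA m) :
    projA E k (a * x) = projA E l a * x := proj_smul (X := 𝟙_ LC) h a hx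

theorem projA_mem_IF {h : ℕ} {x : E.A} (hx : x ∈ IF p E.o.law.toFG h) (c : E.A) (k : ℤ) :
    projA E k (c * x) ∈ IF p E.o.law.toFG h := by
  induction hx using Submodule.span_induction generalizing c with
  | mem x hx =>
    obtain ⟨i, hi, rfl⟩ := hx
    rw [projA_mul (sub_add_cancel k _) c (vF_deg E p i)]
    exact Ideal.mul_mem_left _ _ (vF_mem p _ hi)
  | zero => simp
  | add x y _ _ h1 h2 =>
    rw [mul_add, map_add]
    exact add_mem (h1 c) (h2 c)
  | smul r x _ h1 =>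
    rw [smul_eq_mul, ← mul_assoc]
    exact h1 _

theorem projA_zero_IF (hp : p.Prime) {h : ℕ} {x : E.A} (hx : x ∈ IF p E.o.law.toFG h) (c : E.A) :
    ∃ m : ℤ, projA E 0 (c * x) = ((p : ℤ) * m) • 1 := by
  induction hx using Submodule.span_induction generalizing c with
  | mem x hx =>
    obtain ⟨i, -, rfl⟩ := hx
    rw [projA_mul (sub_add_cancel 0 _) c (vF_deg E p i)]
    rcases Nat.eq_zero_or_pos i with rfl | hi
    · obtain ⟨m, hm⟩ := E.deg_unit_zero _ (E.proj_mem 0 (E.ofA c))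
      refine ⟨m, ?_⟩
      rw [vF_zero, pow_zero, sub_self, sub_self, show projA E 0 c = m • 1 from hm]
      simp [mul_comm]
    · have : 1 < (p : ℤ) ^ i := one_lt_pow₀ (by exact_mod_cast hp.one_lt) hi.ne'
      rw [show projA E _ c = 0 from E.deg_unit_pos _ (by omega) _ (E.proj_mem _ (E.ofA c))]
      exact ⟨0, by simp⟩
  | zero => exact ⟨0, by simp⟩
  | add x y _ _ h1 h2 =>
    obtain ⟨m, hm⟩ := h1 c
    obtain ⟨m', hm'⟩ := h2 c
    exact ⟨m + m', by rw [mul_add, map_add, hm, hm', mul_add, add_smul]⟩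
  | smul r x _ h1 =>
    rw [smul_eq_mul, ← mul_assoc]
    exact h1 _

theorem exists_sub_mem_IF {A : Type*} [CommRing A] {F : FormalGroup A} {h : ℕ} {a : A}
    (ha : a ∈ IF p F (h + 1)) : ∃ b, a - b * vF p F h ∈ IF p F h := by
  induction ha using Submodule.span_induction with
  | mem x hx =>
    obtain ⟨i, hi, rfl⟩ := hx
    rcases (Nat.lt_succ_iff.1 hi).eq_or_lt with rfl | hi
    · exact ⟨1, by simp⟩
    · exact ⟨0, by simpa using vF_mem p F hi⟩
  | zero => exact ⟨0, by simp⟩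
  | add x y _ _ h1 h2 =>
    obtain ⟨b, hb⟩ := h1
    obtain ⟨b', hb'⟩ := h2
    exact ⟨b + b', by convert add_mem hb hb' using 1; ring⟩
  | smul r x _ h1 =>
    obtain ⟨b, hb⟩ := h1
    exact ⟨r * b, by convert Ideal.mul_mem_left _ r hb using 1; rw [smul_eq_mul]; ring⟩

variable (E) in
/-- The regular sequence of a Thom theory. -/
def regSeq (hp : p.Prime) (hZ : ∀ m : ℤ, m • E.one = 0 → m = 0) (hr : IsReg E p) :
    RegSeq p E.A where
  gr n := E.degA (-n)
  I := IF p E.o.law.toFG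
  v := vF p E.o.law.toFG
  I_zero := IF_zero _ _
  v_zero := vF_zero _ _
  le_succ h := IF_mono _ _ h.le_succ
  v_mem h := vF_mem _ _ h.lt_succ_self
  div {h n a} ha k := by
    obtain ⟨b, hb⟩ := exists_sub_mem_IF k
    refine ⟨projA E (-(n - ((p : ℤ) ^ h - 1))) b, E.proj_mem _ (E.ofA b), ?_⟩
    have := projA_mem_IF hb 1 (-n)
    rwa [one_mul, map_sub, projA_mul (l := -(n - ((p : ℤ) ^ h - 1))) (by ring) b (vF_deg E p h),
      show projA E (-n) a = a from E.proj_of_mem ha] at this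
  reg ha := hr _ _ _ ha
  ne h k := by
    have h1 : (1 : E.A) ∈ E.degA 0 := (isMulGr_degA E.toMultTheory).one_mem
    obtain ⟨m, hm⟩ := projA_zero_IF hp (hr h 0 1 h1 (by rwa [one_mul])) 1
    rw [one_mul, show projA E 0 1 = 1 from E.proj_of_mem h1] at hm
    have h2 := hZ ((p : ℤ) * m - 1) (by
      rw [sub_smul, one_smul]
      exact sub_eq_zero.2 hm.symm)
    exact hp.not_dvd_one (Int.natCast_dvd_natCast.1 ⟨m, (sub_eq_zero.1 h2).symm⟩)

end theory

variable {T : Type u} [Category.{v} T] [Preadditive T] [HasZeroObject T]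
    [HasShift T ℤ] [∀ n : ℤ, (shiftFunctor T n).Additive] [Pretriangulated T] [IsTriangulated T]
    [MonoidalCategory T] [SymmetricCategory T] [TensorTriangulated T] [MonoidalClosed T]
    [HasCoproducts.{0} T] [HasProducts.{0} T] [StableCat T]
    (F : SpaceFunctor T) (e : F.S.obj CCF ≅ (stdEven T).L)

/-- The Thom theory of `MU`. -/
def EMU : ThomTheory.{v} :=
  thomTheory (famMU F (stdEven T) e) (cofTriangles F) (isSusp_lineCls e (seqMU F (stdEven T) e))
    (famMU_isoClasses F (stdEven T) e) (evenSeq_MU F (stdEven T) e stdEven_sph)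

theorem EMU_repRel : Det.RepRel (EMU F e).o :=
  fun {Y hY} => @Det.repRel_MU _ _ _ _ _ _ _ _ _ _ F (stdEven T) e Y hY

theorem EMU_repUniq : Det.RepUniq (EMU F e).o :=
  fun {Y hY} => @Det.repUniq_MU _ _ _ _ _ _ _ _ _ _ F (stdEven T) e Y hY

theorem EMU_zsmul (m : ℤ) (h : m • (EMU F e).one = 0) : m = 0 := by
  obtain ⟨M⟩ := nonempty_MUMon F (stdEven T) e
  exact zsmul_one_eq_zero M.tel M.telMon (cofTriangles F) _
    (isSusp_lineCls e (seqMU F (stdEven T) e)) (PiConn.of_cofIn F _ M.tel M.telMon.one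
      (evenSeq_MU F (stdEven T) e stdEven_sph).cof) m h

variable {p : ℕ} (hp : p.Prime) (h2 : p ≠ 2)
include hp h2

theorem EMU_qData : QData (EMU F e).toMultTheory (EMU F e).o.law p :=
  (EMU F e).qData_of_euler hp h2 (fun r _ k => lensEuler _ r k) fun a ha => by
    have h3 := EMU_zsmul F e ((p : ℤ) * a) (by rw [mul_smul, natCast_zsmul]; exact ha)
    rw [(mul_eq_zero.mp h3).resolve_left (by exact_mod_cast hp.ne_zero), zero_smul]

theorem EMU_isReg : IsReg (EMU F e) p := fun h n a ha k => by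
  have : Fact p.Prime := ⟨hp⟩
  obtain ⟨M⟩ := nonempty_MUMon F (stdEven T) e
  obtain ⟨b⟩ := M.nonempty_muBasis
  obtain ⟨Z, i, δ, hC⟩ := distinguished_cocone_triangle ((p : ℤ) • 𝟙 (𝟙_ T))
  let φ : (EMU F e).A ≃+* HRing (stdEven T) (M.data b).R :=
    coefRing M.tel F M.telMon (cofTriangles F) _ (isSusp_lineCls e (seqMU F (stdEven T) e))
  have h1 : (M.data b).law = (EMU F e).o.law.map φ.toRingHom := (M.data_law b).trans
    (law_push_eq e M.tel M.telMon _ (line_telHom M.tel e M.telMon rfl) _)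
  have h3 : ∀ i, φ (vF p (EMU F e).o.law.toFG i) = HRing.of (stdEven T) (M.data b).R
      ((p ^ i : ℤ) - 1) (H702.vK (M.data b) p (𝟙 _) i) := fun i => by
    rw [H702.vK, Category.comp_id, ← (M.data b).vel_spec, h1, vv_map]
    rfl
  have h4 : ∀ x, x ∈ IF p (EMU F e).o.law.toFG h ↔ φ x ∈ Ideal.span (Set.range fun i : Fin h =>
      HRing.of (stdEven T) (M.data b).R ((p ^ (i : ℕ) : ℤ) - 1)
        (H702.vK (M.data b) p (𝟙 _) i)) := fun x => by
    rw [← Ideal.apply_mem_of_equiv_iff (f := φ), IF, Ideal.map_span]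
    refine iff_of_eq (congrArg (fun s => φ x ∈ Ideal.span s) (Set.ext fun y => ⟨?_, ?_⟩))
    · rintro ⟨_, ⟨i, hi, rfl⟩, rfl⟩
      exact ⟨⟨i, hi⟩, (h3 i).symm⟩
    · rintro ⟨i, rfl⟩
      exact ⟨_, ⟨i, i.2, rfl⟩, h3 i⟩
  obtain ⟨g, hg⟩ := coefRing_of_mem M.tel M.telMon (cofTriangles F) _
    (isSusp_lineCls e (seqMU F (stdEven T) e)) (add_neg_cancel n) ha
  replace hg : φ a = HRing.of (stdEven T) (M.data b).R (-n) g := hg
  rw [h4, map_mul, h3, hg] at k
  rw [h4, hg]
  exact H702.mu_halg (M.data b) h2 hC h (-n) g k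

/-- the regular sequence of `MU` -/
def regMU : RegSeq p (EMU F e).A := regSeq _ hp (EMU_zsmul F e) (EMU_isReg F e hp h2)

end Vale.Agent.P257.L
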