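import Vale.Agent.P251.M.EvenPer
import Mathlib.CategoryTheory.Monoidal.Preadditive
import Mathlib.CategoryTheory.Yoneda

/-!
# P257, block LINK: triangles in a monoidal category

`TriStr S` : a class of triangles `A ⟶ B ⟶ Z ⟶ A ⊗ S` with the axioms TR1 - TR3.  Exactness, the
five lemmas and the uniqueness of cones follow as usual.
-/

open CategoryTheory MonoidalCategory Limits

universe v u

set_option linter.unusedSectionVars false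

namespace Vale.Agent.P257.L

open Vale.Agent.P251.M

variable {C : Type u} [Category.{v} C] [MonoidalCategory C]

/-- `φ` is bijective on maps out of `T` -/
def Bij (T : C) {X Y : C} (φ : X ⟶ Y) : Prop := Function.Bijective fun g : T ⟶ X => g ≫ φ

namespace Bij

variable {T T' X Y Z X' Y' : C} {φ : X ⟶ Y} {ψ : Y ⟶ Z}

omit [MonoidalCategory C]

theorem inj (h : Bij T φ) {x y : T ⟶ X} (e : x ≫ φ = y ≫ φ) : x = y := h.1 e

theorem surj (h : Bij T φ) (y : T ⟶ Y) : ∃ x : T ⟶ X, x ≫ φ = y := h.2 y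

theorem of_isIso (T : C) (φ : X ⟶ Y) [IsIso φ] : Bij T φ :=
  ⟨fun _ _ k => (cancel_mono φ).1 k, fun g => ⟨g ≫ inv φ, by simp⟩⟩

theorem comp (h : Bij T φ) (k : Bij T ψ) : Bij T (φ ≫ ψ) := by
  simpa [Bij, Function.comp_def] using Function.Bijective.comp k h

theorem of_comp_left (h : Bij T φ) (k : Bij T (φ ≫ ψ)) : Bij T ψ :=
  (Function.Bijective.of_comp_iff _ h).1 (by simpa [Bij, Function.comp_def] using k)

theorem of_comp_right (h : Bij T ψ) (k : Bij T (φ ≫ ψ)) : Bij T φ :=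
  (Function.Bijective.of_comp_iff' h _).1 (by simpa [Bij, Function.comp_def] using k)

theorem of_iso (h : Bij T φ) (e : T' ≅ T) : Bij T' φ :=
  ⟨fun x y k => by
    rw [← cancel_epi e.inv]
    exact h.inj (by rw [Category.assoc, Category.assoc]; exact congrArg (e.inv ≫ ·) k),
   fun y => by
    obtain ⟨x, hx⟩ := h.surj (e.inv ≫ y)
    exact ⟨e.hom ≫ x, by simp [hx]⟩⟩

theorem of_arrow {φ' : X' ⟶ Y'} (h : Bij T φ) (a : X ≅ X') (b : Y ≅ Y')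
    (w : φ ≫ b.hom = a.hom ≫ φ') : Bij T φ' :=
  (of_isIso T a.hom).of_comp_left (w ▸ h.comp (of_isIso T b.hom))

end Bij

variable [SymmetricCategory C]

theorem bij_whiskerRight_iff (P : C) [IsInv P] {T X Y : C} {φ : X ⟶ Y} :
    Bij (T ⊗ P) (φ ▷ P) ↔ Bij T φ := by
  have e : ∀ X : C, Function.Bijective fun g : T ⟶ X => g ▷ P := fun X =>
    ⟨fun _ _ k => whiskerRight_inj P k, whiskerRight_surj P⟩
  have w : ((fun g : T ⊗ P ⟶ X ⊗ P => g ≫ φ ▷ P) ∘ fun g : T ⟶ X => g ▷ P) =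
      (fun g : T ⟶ Y => g ▷ P) ∘ fun g : T ⟶ X => g ≫ φ := by
    funext g
    simp
  rw [Bij, Bij, ← Function.Bijective.of_comp_iff _ (e X), w, Function.Bijective.of_comp_iff' (e Y)]

variable [Preadditive C]

/-- triangles -/
structure TriStr (S : C) where
  /-- the triangles -/
  Tri : ∀ {A B Z : C}, (A ⟶ B) → (B ⟶ Z) → (Z ⟶ A ⊗ S) → Prop
  iso {A B Z A' B' Z' : C} {f : A ⟶ B} {g : B ⟶ Z} {q : Z ⟶ A ⊗ S} {f' : A' ⟶ B'}
    {g' : B' ⟶ Z'} {q' : Z' ⟶ A' ⊗ S} (a : A ≅ A') (b : B ≅ B') (z : Z ≅ Z') :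
    f ≫ b.hom = a.hom ≫ f' → g ≫ z.hom = b.hom ≫ g' → q ≫ a.hom ▷ S = z.hom ≫ q' →
      Tri f g q → Tri f' g' q'
  ex {A B : C} (f : A ⟶ B) : ∃ (Z : C) (g : B ⟶ Z) (q : Z ⟶ A ⊗ S), Tri f g q
  zero (Y : C) : ∃ O : C, IsZero O ∧ Tri (0 : O ⟶ Y) (𝟙 Y) 0
  rot {A B Z : C} {f : A ⟶ B} {g : B ⟶ Z} {q : Z ⟶ A ⊗ S} : Tri f g q → Tri g q (-f ▷ S)
  tr3 {A B Z A' B' Z' : C} {f : A ⟶ B} {g : B ⟶ Z} {q : Z ⟶ A ⊗ S} {f' : A' ⟶ B'}
    {g' : B' ⟶ Z'} {q' : Z' ⟶ A' ⊗ S} (a : A ⟶ A') (b : B ⟶ B') :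
    Tri f g q → Tri f' g' q' → f ≫ b = a ≫ f' →
      ∃ c : Z ⟶ Z', g ≫ c = b ≫ g' ∧ q ≫ a ▷ S = c ≫ q'
  whiskerLeft {A B Z : C} {f : A ⟶ B} {g : B ⟶ Z} {q : Z ⟶ A ⊗ S} (X : C) :
    Tri f g q → Tri (X ◁ f) (X ◁ g) (X ◁ q ≫ (α_ X A S).inv)

namespace TriStr

variable {S : C} {D : TriStr S} {A B Z A' B' Z' W X Y : C} {f : A ⟶ B} {g : B ⟶ Z}
  {q : Z ⟶ A ⊗ S} {f' : A' ⟶ B'} {g' : B' ⟶ Z'} {q' : Z' ⟶ A' ⊗ S}

theorem whiskerRight (h : D.Tri f g q) (X : C) :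
    D.Tri (f ▷ X) (g ▷ X) ((β_ Z X).hom ≫ X ◁ q ≫ (α_ X A S).inv ≫ (β_ X A).hom ▷ S) :=
  D.iso (β_ X A) (β_ X B) (β_ X Z) (by simp) (by simp)
    (by rw [SymmetricCategory.symmetry_assoc, Category.assoc]) (D.whiskerLeft X h)

theorem comp₁ (h : D.Tri f g q) : f ≫ g = 0 := by
  obtain ⟨O, -, k⟩ := D.zero A
  obtain ⟨c, hc, -⟩ := D.tr3 (𝟙 A) f (D.rot k) h rfl
  rw [← hc, zero_comp]

theorem comp₂ (h : D.Tri f g q) : g ≫ q = 0 := comp₁ (D.rot h)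

theorem comp₃ (h : D.Tri f g q) : q ≫ f ▷ S = 0 := by
  simpa using comp₁ (D.rot (D.rot h))

theorem contra₂ (h : D.Tri f g q) (y : B ⟶ W) (e : f ≫ y = 0) : ∃ c : Z ⟶ W, g ≫ c = y := by
  obtain ⟨O, -, k⟩ := D.zero W
  obtain ⟨c, hc, -⟩ := D.tr3 0 y h k (by rw [e, comp_zero])
  exact ⟨c, by rw [hc, Category.comp_id]⟩

theorem contra₃ (h : D.Tri f g q) (y : Z ⟶ W) (e : g ≫ y = 0) : ∃ c : A ⊗ S ⟶ W, q ≫ c = y :=
  contra₂ (D.rot h) y e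

theorem contra₄ (h : D.Tri f g q) (y : A ⊗ S ⟶ W) (e : q ≫ y = 0) :
    ∃ c : B ⊗ S ⟶ W, f ▷ S ≫ c = y := by
  obtain ⟨c, hc⟩ := contra₃ (D.rot h) y e
  exact ⟨-c, by simpa using hc⟩

variable [IsInv S] [MonoidalPreadditive C]

theorem co₂ (h : D.Tri f g q) (y : W ⟶ B) (e : y ≫ g = 0) : ∃ x : W ⟶ A, x ≫ f = y := by
  obtain ⟨O, -, k⟩ := D.zero W
  obtain ⟨c, -, hc⟩ := D.tr3 y 0 (D.rot (D.rot k)) (D.rot h) (by rw [e, zero_comp])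
  obtain ⟨x, rfl⟩ := whiskerRight_surj S c
  exact ⟨x, whiskerRight_inj S (by simpa using hc.symm)⟩

theorem co₃ (h : D.Tri f g q) (y : W ⟶ Z) (e : y ≫ q = 0) : ∃ x : W ⟶ B, x ≫ g = y :=
  co₂ (D.rot h) y e

theorem co₄ (h : D.Tri f g q) (y : W ⟶ A ⊗ S) (e : y ≫ f ▷ S = 0) : ∃ x : W ⟶ Z, x ≫ q = y :=
  co₃ (D.rot h) y (by rw [Preadditive.comp_neg, e, neg_zero])

/-- the covariant five lemma -/
theorem five (h : D.Tri f g q) (h' : D.Tri f' g' q') {a : A ⟶ A'} {b : B ⟶ B'} {c : Z ⟶ Z'}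
    (w₁ : f ≫ b = a ≫ f') (w₂ : g ≫ c = b ≫ g') (w₃ : q ≫ a ▷ S = c ≫ q') (ha : Bij W a)
    (hb : Bij W b) (ha' : Bij W (a ▷ S)) (hb' : Bij W (b ▷ S)) : Bij W c := by
  constructor
  · intro x₁ x₂ e
    have e0 : (x₁ - x₂) ≫ c = 0 := by rw [Preadditive.sub_comp]; exact sub_eq_zero.2 e
    obtain ⟨y, hy⟩ := co₃ h (x₁ - x₂) (ha'.inj (by
      rw [Category.assoc, w₃, reassoc_of% e0, zero_comp, zero_comp]))
    obtain ⟨w, hw⟩ := co₂ h' (y ≫ b) (by rw [Category.assoc, ← w₂, reassoc_of% hy, e0])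
    obtain ⟨w, rfl⟩ := ha.surj w
    obtain rfl : w ≫ f = y := hb.inj (by rw [Category.assoc, w₁, ← hw, Category.assoc])
    rw [← sub_eq_zero, ← hy, Category.assoc, comp₁ h, comp_zero]
  · intro x'
    obtain ⟨t, ht⟩ := ha'.surj (x' ≫ q')
    obtain ⟨x, rfl⟩ := co₄ h t (hb'.inj (by
      rw [Category.assoc, ← comp_whiskerRight, w₁, comp_whiskerRight, reassoc_of% ht, comp₃ h',
        comp_zero, zero_comp]))
    obtain ⟨y, hy⟩ := co₃ h' (x' - x ≫ c) (by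
      rw [Preadditive.sub_comp, Category.assoc, ← w₃, ← ht, Category.assoc, sub_self])
    obtain ⟨y, rfl⟩ := hb.surj y
    refine ⟨x + y ≫ g, ?_⟩
    change (x + y ≫ g) ≫ c = x'
    rw [Preadditive.add_comp, Category.assoc, w₂, ← Category.assoc y, hy, add_sub_cancel]

omit [IsInv S] [MonoidalPreadditive C] in
/-- the contravariant five lemma -/
theorem five' (h : D.Tri f g q) {φ : X ⟶ Y} (hA : Bij A φ) (hB : Bij B φ) (hA' : Bij (A ⊗ S) φ)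
    (hB' : Bij (B ⊗ S) φ) : Bij Z φ := by
  constructor
  · intro x₁ x₂ e
    have e0 : (x₁ - x₂) ≫ φ = 0 := by rw [Preadditive.sub_comp]; exact sub_eq_zero.2 e
    obtain ⟨t, ht⟩ := contra₃ h (x₁ - x₂) (hB.inj (by rw [Category.assoc, e0, comp_zero, zero_comp]))
    obtain ⟨w, hw⟩ := contra₄ h (t ≫ φ) (by rw [reassoc_of% ht, e0])
    obtain ⟨w, rfl⟩ := hB'.surj w
    obtain rfl : f ▷ S ≫ w = t := hA'.inj (by rw [Category.assoc, hw])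
    rw [← sub_eq_zero, ← ht, reassoc_of% comp₃ h, zero_comp]
  · intro y
    obtain ⟨t, ht⟩ := hB.surj (g ≫ y)
    obtain ⟨x, rfl⟩ := contra₂ h t (hA.inj (by
      rw [Category.assoc, ht, reassoc_of% comp₁ h, zero_comp, zero_comp]))
    obtain ⟨w, hw⟩ := contra₃ h (y - x ≫ φ) (by
      rw [Preadditive.comp_sub, ← ht, Category.assoc, sub_self])
    obtain ⟨w, rfl⟩ := hA'.surj w
    refine ⟨x + q ≫ w, ?_⟩
    change (x + q ≫ w) ≫ φ = y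
    rw [Preadditive.add_comp, Category.assoc, hw, add_sub_cancel]

theorem isIso₃ (h : D.Tri f g q) (h' : D.Tri f' g' q') {a : A ⟶ A'} {b : B ⟶ B'} {c : Z ⟶ Z'}
    (w₁ : f ≫ b = a ≫ f') (w₂ : g ≫ c = b ≫ g') (w₃ : q ≫ a ▷ S = c ≫ q') [IsIso a] [IsIso b] :
    IsIso c :=
  isIso_of_yoneda_map_bijective c fun W => five h h' w₁ w₂ w₃ (Bij.of_isIso W _)
    (Bij.of_isIso W _) (Bij.of_isIso W _) (Bij.of_isIso W _)

/-- uniqueness of cones -/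
theorem uniq {g' : B ⟶ Z'} {q' : Z' ⟶ A ⊗ S} (h : D.Tri f g q) (h' : D.Tri f g' q') :
    ∃ e : Z ≅ Z', g ≫ e.hom = g' ∧ e.hom ≫ q' = q := by
  obtain ⟨c, h1, h2⟩ := D.tr3 (𝟙 A) (𝟙 B) h h' (by simp)
  have := isIso₃ h h' (by simp) h1 h2
  exact ⟨asIso c, by simpa using h1, by simpa using h2.symm⟩

end TriStr

end Vale.Agent.P257.L
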