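import Vale.Agent.P257.L.ConeMap
import Vale.Agent.P257.L.Tri

/-!
# P257, block LINK: triangles in a category of right fractions

`Loc st` : the monoidal functor `st : M ⥤ C` is a localisation of the homotopy category of `M` by
right fractions with denominators `U ⊗ A ⟶ A`.  `Loc.triStr` : the images of the mapping cone
sequences satisfy TR1 - TR3.
-/

open CategoryTheory MonoidalCategory Limits Functor.LaxMonoidal Functor.OplaxMonoidal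

universe v u v' u'

set_option linter.unusedSectionVars false

namespace Vale.Agent.P257.L

open Vale.Agent.P251.G Vale.Agent.P251.H Vale.Agent.P251.H.StabInput

section tw

variable {M : Type u} [Category.{v} M] [MonoidalCategory M] {U : M} (w : U ⟶ 𝟙_ M)

/-- the denominators -/
def tw (A : M) : U ⊗ A ⟶ A := w ▷ A ≫ (λ_ A).hom

@[reassoc]
theorem tw_naturality {A B : M} (f : A ⟶ B) : U ◁ f ≫ tw w B = tw w A ≫ f := by
  rw [tw, tw, whisker_exchange_assoc, leftUnitor_naturality, Category.assoc]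

@[reassoc]
theorem tw_tensor (A B : M) : (α_ U A B).inv ≫ tw w A ▷ B = tw w (A ⊗ B) := by
  simp [tw]

theorem tw_tw {U' : M} (w' : U' ⟶ 𝟙_ M) (A : M) :
    tw (tw w U' ≫ w') A = (α_ U U' A).hom ≫ tw w (U' ⊗ A) ≫ tw w' A := by
  simp [tw]

theorem isIso_map_tw {C : Type u'} [Category.{v'} C] [MonoidalCategory C] (F : M ⥤ C) [F.Monoidal]
    [IsIso (F.map w)] (A : M) : IsIso (F.map (tw w A)) := by
  rw [tw, F.map_comp, Functor.Monoidal.map_whiskerRight]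
  infer_instance

end tw

variable {M : Type u} [Category.{v} M] [MonoidalCategory M] [SymmetricCategory M]
    [MonoidalClosed M] [HasZeroMorphisms M] [HasColimitsOfSize.{0, 0} M] [StabInput M]
    {C : Type u'} [Category.{v'} C] [Preadditive C] [MonoidalCategory C] [SymmetricCategory C]
    [MonoidalPreadditive C] (st : M ⥤ C) [st.Monoidal]

/-- localisations by right fractions -/
structure Loc : Prop where
  htpy {A X : M} {f g : A ⟶ X} : MHtpy f g → st.map f = st.map g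
  zero (A X : M) : st.map (0 : A ⟶ X) = 0
  neg : st.map ((J M).map LC.neg) = -𝟙 _
  surj (X : C) : ∃ A : M, Nonempty (st.obj A ≅ X)
  frac {A X : M} (φ : st.obj A ⟶ st.obj X) : ∃ (U : M) (w : U ⟶ 𝟙_ M) (a : U ⊗ A ⟶ X),
    IsIso (st.map w) ∧ st.map (tw w A) ≫ φ = st.map a
  eq {A X : M} {a b : A ⟶ X} : st.map a = st.map b → ∃ (U : M) (w : U ⟶ 𝟙_ M),
    IsIso (st.map w) ∧ MHtpy (tw w A ≫ a) (tw w A ≫ b)

variable {A B Z A' B' Z' : C}

/-- presentation of a triangle by a mapping cone sequence -/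
structure Pres (f : A ⟶ B) (g : B ⟶ Z) (q : Z ⟶ A ⊗ st.obj (S M)) where
  {A₀ B₀ Z₀ : M}
  {u : A₀ ⟶ B₀}
  {k : A₀ ⊗ CI M ⟶ Z₀}
  {i : B₀ ⟶ Z₀}
  {r : Z₀ ⟶ A₀ ⊗ S M}
  cone : IsCone u k i r
  /-- comparison -/
  a : st.obj A₀ ≅ A
  /-- comparison -/
  b : st.obj B₀ ≅ B
  /-- comparison -/
  z : st.obj Z₀ ≅ Z
  w₁ : st.map u ≫ b.hom = a.hom ≫ f
  w₂ : st.map i ≫ z.hom = b.hom ≫ g
  w₃ : st.map r ≫ δ st A₀ (S M) ≫ a.hom ▷ _ = z.hom ≫ q

variable {st} {f : A ⟶ B} {g : B ⟶ Z} {q : Z ⟶ A ⊗ st.obj (S M)} {f' : A' ⟶ B'} {g' : B' ⟶ Z'}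
  {q' : Z' ⟶ A' ⊗ st.obj (S M)}

/-- refinement of a presentation -/
noncomputable def Pres.tw (P : Pres st f g q) {U : M} (w : U ⟶ 𝟙_ M) (hw : IsIso (st.map w)) :
    Pres st f g q where
  cone := isCone_whiskerLeft P.cone U
  a := @asIso _ _ _ _ _ (isIso_map_tw w st _) ≪≫ P.a
  b := @asIso _ _ _ _ _ (isIso_map_tw w st _) ≪≫ P.b
  z := @asIso _ _ _ _ _ (isIso_map_tw w st _) ≪≫ P.z
  w₁ := by
    simp only [Iso.trans_hom, asIso_hom, Category.assoc]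
    rw [← P.w₁, ← st.map_comp_assoc, tw_naturality, st.map_comp_assoc]
  w₂ := by
    simp only [Iso.trans_hom, asIso_hom, Category.assoc]
    rw [← P.w₂, ← st.map_comp_assoc, tw_naturality, st.map_comp_assoc]
  w₃ := by
    simp only [Iso.trans_hom, asIso_hom, Category.assoc, comp_whiskerRight]
    rw [← P.w₃, δ_natural_left_assoc, ← st.map_comp_assoc, Category.assoc, tw_tensor,
      tw_naturality, st.map_comp_assoc]

namespace Loc

variable (H : Loc st)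
include H

theorem tr3_aux (P : Pres st f g q) (P' : Pres st f' g' q') {a : A ⟶ A'} {b : B ⟶ B'}
    (a₀ : P.A₀ ⟶ P'.A₀) (b₀ : P.B₀ ⟶ P'.B₀) (ha : P.a.hom ≫ a = st.map a₀ ≫ P'.a.hom)
    (hb : P.b.hom ≫ b = st.map b₀ ≫ P'.b.hom) (w : MHtpy (a₀ ≫ P'.u) (P.u ≫ b₀)) :
    ∃ c : Z ⟶ Z', g ≫ c = b ≫ g' ∧ q ≫ a ▷ _ = c ≫ q' := by
  obtain ⟨c, h1, h2⟩ := exists_coneMap P.cone P'.cone a₀ b₀ w
  refine ⟨P.z.inv ≫ st.map c ≫ P'.z.hom, ?_, ?_⟩
  · rw [← cancel_epi P.b.hom, ← reassoc_of% P.w₂, Iso.hom_inv_id_assoc, ← st.map_comp_assoc, h1,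
      reassoc_of% hb, ← P'.w₂, st.map_comp_assoc]
  · rw [← cancel_epi P.z.hom, ← reassoc_of% P.w₃, ← comp_whiskerRight, ha, comp_whiskerRight,
      δ_natural_left_assoc, ← st.map_comp_assoc, H.htpy h2, Category.assoc, Category.assoc,
      Iso.hom_inv_id_assoc, ← P'.w₃, st.map_comp_assoc]

theorem tr3_ab (P : Pres st f g q) (P' : Pres st f' g' q') {a : A ⟶ A'} {b : B ⟶ B'}
    (a₀ : P.A₀ ⟶ P'.A₀) (b₀ : P.B₀ ⟶ P'.B₀) (ha : P.a.hom ≫ a = st.map a₀ ≫ P'.a.hom)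
    (hb : P.b.hom ≫ b = st.map b₀ ≫ P'.b.hom) (w : f ≫ b = a ≫ f') :
    ∃ c : Z ⟶ Z', g ≫ c = b ≫ g' ∧ q ≫ a ▷ _ = c ≫ q' := by
  obtain ⟨U, t, ht, h⟩ := H.eq (a := a₀ ≫ P'.u) (b := P.u ≫ b₀) (by
    rw [← cancel_mono P'.b.hom, st.map_comp_assoc, P'.w₁, ← reassoc_of% ha, ← w, st.map_comp_assoc,
      ← hb, reassoc_of% P.w₁])
  exact H.tr3_aux (P.tw t ht) P' (tw t P.A₀ ≫ a₀) (tw t P.B₀ ≫ b₀)
    (((Category.assoc _ _ _).trans (congrArg (_ ≫ ·) ha)).trans (st.map_comp_assoc _ _ _).symm)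
    (((Category.assoc _ _ _).trans (congrArg (_ ≫ ·) hb)).trans (st.map_comp_assoc _ _ _).symm)
    ((MHtpy.of_eq (Category.assoc _ _ _)).trans (h.trans
      (MHtpy.of_eq (tw_naturality_assoc t P.u b₀).symm)))

theorem tr3_a (P : Pres st f g q) (P' : Pres st f' g' q') {a : A ⟶ A'} (b : B ⟶ B')
    (a₀ : P.A₀ ⟶ P'.A₀) (ha : P.a.hom ≫ a = st.map a₀ ≫ P'.a.hom) (w : f ≫ b = a ≫ f') :
    ∃ c : Z ⟶ Z', g ≫ c = b ≫ g' ∧ q ≫ a ▷ _ = c ≫ q' := by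
  obtain ⟨U, t, b₀, ht, h⟩ := H.frac (P.b.hom ≫ b ≫ P'.b.inv)
  have k : st.map (tw t P.B₀) ≫ P.b.hom ≫ b = st.map b₀ ≫ P'.b.hom := by
    simpa using congrArg (· ≫ P'.b.hom) h
  exact H.tr3_ab (P.tw t ht) P' (tw t P.A₀ ≫ a₀) b₀
    (((Category.assoc _ _ _).trans (congrArg (_ ≫ ·) ha)).trans (st.map_comp_assoc _ _ _).symm)
    ((Category.assoc _ _ _).trans k) w

theorem tr3 (P : Pres st f g q) (P' : Pres st f' g' q') (a : A ⟶ A') (b : B ⟶ B')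
    (w : f ≫ b = a ≫ f') : ∃ c : Z ⟶ Z', g ≫ c = b ≫ g' ∧ q ≫ a ▷ _ = c ≫ q' := by
  obtain ⟨U, t, a₀, ht, h⟩ := H.frac (P.a.hom ≫ a ≫ P'.a.inv)
  have k : st.map (tw t P.A₀) ≫ P.a.hom ≫ a = st.map a₀ ≫ P'.a.hom := by
    simpa using congrArg (· ≫ P'.a.hom) h
  exact H.tr3_a (P.tw t ht) P' b a₀ ((Category.assoc _ _ _).trans k) w

theorem rot (P : Pres st f g q) : Nonempty (Pres st g q (-f ▷ st.obj (S M))) := by
  obtain ⟨D, l, j, r, e, e', h1, h2, h3, h4, h5⟩ := exists_rot P.cone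
  let ε : st.obj D ≅ st.obj (P.A₀ ⊗ S M) := ⟨st.map e, st.map e',
    by rw [← st.map_comp, H.htpy h3, st.map_id], by rw [← st.map_comp, H.htpy h4, st.map_id]⟩
  refine ⟨⟨h1, P.b, P.z, ε ≪≫ (Functor.Monoidal.μIso st _ _).symm ≪≫ whiskerRightIso P.a _,
    P.w₂, ?_, ?_⟩⟩
  · rw [← P.w₃, ← h2]
    simp [ε]
  · rw [H.htpy h5, st.map_comp_assoc, ← δ_natural_right_assoc, H.neg, st.map_comp_assoc,
      ← δ_natural_left_assoc, show ∀ X Y : C, X ◁ (-𝟙 Y) = -𝟙 (X ⊗ Y) from fun X Y =>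
        ((tensorLeft X).map_neg).trans (by simp), Preadditive.neg_comp, Category.id_comp,
      Preadditive.comp_neg, ← comp_whiskerRight, P.w₁]
    simp [ε]

theorem whiskerLeft (P : Pres st f g q) (X : C) :
    Nonempty (Pres st (X ◁ f) (X ◁ g) (X ◁ q ≫ (α_ _ _ _).inv)) := by
  obtain ⟨X₀, ⟨x⟩⟩ := H.surj X
  refine ⟨⟨isCone_whiskerLeft P.cone X₀, (Functor.Monoidal.μIso st _ _).symm ≪≫ (x ⊗ᵢ P.a),
    (Functor.Monoidal.μIso st _ _).symm ≪≫ (x ⊗ᵢ P.b),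
    (Functor.Monoidal.μIso st _ _).symm ≪≫ (x ⊗ᵢ P.z), ?_, ?_, ?_⟩⟩ <;>
    simp only [Iso.trans_hom, Iso.symm_hom, Functor.Monoidal.μIso_inv, tensorIso_hom,
      Category.assoc]
  · rw [← δ_natural_right_assoc, whiskerLeft_comp_tensorHom, P.w₁, tensorHom_comp_whiskerLeft]
  · rw [← δ_natural_right_assoc, whiskerLeft_comp_tensorHom, P.w₂, tensorHom_comp_whiskerLeft]
  · rw [tensorHom_comp_whiskerLeft_assoc, ← P.w₃, comp_whiskerRight, st.map_comp_assoc,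
      ← Functor.OplaxMonoidal.associativity_inv_assoc, ← δ_natural_right_assoc, ← tensorHom_id (x.hom ⊗ₘ P.a.hom),
      ← associator_inv_naturality, whiskerLeft_comp_tensorHom_assoc,
      whiskerLeft_comp_tensorHom_assoc, tensorHom_id]

/-- The triangles of a localisation. -/
def triStr : TriStr (st.obj (S M)) where
  Tri f g q := Nonempty (Pres st f g q)
  iso a b z h1 h2 h3 := fun ⟨P⟩ => ⟨⟨P.cone, P.a ≪≫ a, P.b ≪≫ b, P.z ≪≫ z,
    by rw [Iso.trans_hom, Iso.trans_hom, reassoc_of% P.w₁, h1, Category.assoc],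
    by rw [Iso.trans_hom, Iso.trans_hom, reassoc_of% P.w₂, h2, Category.assoc],
    by rw [Iso.trans_hom, Iso.trans_hom, comp_whiskerRight, reassoc_of% P.w₃, h3, Category.assoc]⟩⟩
  ex {A B} f := by
    obtain ⟨A₀, ⟨a⟩⟩ := H.surj A
    obtain ⟨B₀, ⟨b⟩⟩ := H.surj B
    obtain ⟨U, w, t, hw, h⟩ := H.frac (a.hom ≫ f ≫ b.inv)
    obtain ⟨Z₀, k, i, r, c⟩ := IsCone.exists_isCone t
    exact ⟨_, b.inv ≫ st.map i, _, ⟨⟨c, @asIso _ _ _ _ _ (isIso_map_tw w st _) ≪≫ a, b, Iso.refl _,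
      by simp [← h], by simp, (Category.id_comp _).symm⟩⟩⟩
  zero Y := by
    obtain ⟨Y₀, ⟨y⟩⟩ := H.surj Y
    have hO := isZero_empty (M := M)
    refine ⟨_, ?_, ⟨⟨isCone_zero hO Y₀, Iso.refl _, y, y, by simp [H.zero], by simp,
      by simp [H.zero]⟩⟩⟩
    rw [IsZero.iff_id_eq_zero, ← st.map_id, hO.eq_of_src (𝟙 _) 0, H.zero]
  rot := fun ⟨P⟩ => H.rot P
  tr3 a b := fun ⟨P⟩ ⟨P'⟩ => H.tr3 P P' a b
  whiskerLeft X := fun ⟨P⟩ => H.whiskerLeft P X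

/-- mapping cones give triangles -/
theorem tri_cone {A B Z : M} {u : A ⟶ B} {k : A ⊗ CI M ⟶ Z} {i : B ⟶ Z} {r : Z ⟶ A ⊗ S M}
    (h : IsCone u k i r) : H.triStr.Tri (st.map u) (st.map i) (st.map r ≫ δ st A (S M)) :=
  ⟨⟨h, Iso.refl _, Iso.refl _, Iso.refl _, by simp, by simp, by simp⟩⟩

theorem tri_pushout {A B Z : M} {u : A ⟶ B} {k : A ⊗ CI M ⟶ Z} {i : B ⟶ Z}
    (h : IsPushout (coneBase A) u k i) : ∃ q, H.triStr.Tri (st.map u) (st.map i) q := by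
  obtain ⟨r, h1, h2⟩ := exists_collapse h
  exact ⟨_, H.tri_cone ⟨h, h1, h2⟩⟩

/-- h-cofibrations with their strict cofibres give triangles -/
theorem tri_hCof {A B O Q : M} {i : A ⟶ B} (hi : HCof i) (hO : IsZero O) {z : A ⟶ O} {c : B ⟶ Q}
    {z' : O ⟶ Q} (hQ : IsPushout i z c z') : ∃ q, H.triStr.Tri (st.map i) (st.map c) q := by
  obtain ⟨D, k, j, r, h⟩ := IsCone.exists_isCone i
  have w : coneBase A ≫ 0 = i ≫ c := by rw [comp_zero, hQ.w, hO.eq_of_src z' 0, comp_zero]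
  obtain ⟨e', h1, h2⟩ := hi.exists_cone_inverse h.po hO hQ (h.po.desc _ _ w) (h.po.inl_desc _ _ _)
    (h.po.inr_desc _ _ _)
  let ε : st.obj D ≅ st.obj Q := ⟨st.map (h.po.desc _ _ w), st.map e',
    by rw [← st.map_comp, H.htpy h1, st.map_id], by rw [← st.map_comp, H.htpy h2, st.map_id]⟩
  exact ⟨ε.inv ≫ st.map r ≫ δ st A (S M), ⟨⟨h, Iso.refl _, Iso.refl _, ε, by simp,
    by simp [ε, ← st.map_comp], by simp⟩⟩⟩

end Loc

end Vale.Agent.P257.L
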