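import Vale.Agent.P257.L.Thom
import Vale.Agent.P257.H702.HasV

/-!
# P257, block LINK: from a tower in a model to `HasV`

`hasV_of_tow` : a tower `Tow p (n + 1) i` in a model gives a Smith-Toda complex `V(n)` in every
stable homotopy category.
-/

open CategoryTheory MonoidalCategory Limits Pretriangulated MonObj

universe v u v' u'

set_option linter.unusedSectionVars false

noncomputable section

namespace Vale.Agent.P257.L

open Vale.Agent.P251 Vale.Agent.P251.G Vale.Agent.P251.G.LC Vale.Agent.P251.I Vale.Agent.P251.M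
  Vale.Agent.P251.T Vale.Agent.P257.H314
open Vale.Agent.P251.S hiding IC

variable {C : Type u'} [Category.{v'} C] [Preadditive C] [MonoidalCategory C]
  [SymmetricCategory C] [MonoidalPreadditive C]

theorem CMod.NZ.iso_comp {K : CMod C} {A A' V : C} {x : A ⟶ V} (h : K.NZ x) (e : A' ≅ A) :
    K.NZ (e.hom ≫ x) := by
  intro n h0
  apply h n
  rw [← Category.id_comp (TO.j K.G n _), ← tensorHom_comp_tensorHom, id_tensorHom,
    Preadditive.IsIso.comp_left_eq_zero] at h0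
  exact h0

theorem CMod.NZ.zsmul {K : CMod C} {A V : C} {x : A ⟶ V} (h : K.NZ x) {c : ℤ}
    (hc : IsIso (c • 𝟙 (𝟙_ C))) : K.NZ (c • x) := by
  intro n h0
  apply h n
  refine eq_zero_of_zsmul hc ?_
  rwa [tensorHom_def', zsmul_wL, Preadditive.zsmul_comp, ← tensorHom_def'] at h0

section

variable {T : Type u} [Category.{v} T] [Preadditive T] [HasZeroObject T]
    [HasShift T ℤ] [∀ n : ℤ, (shiftFunctor T n).Additive] [Pretriangulated T] [IsTriangulated T]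
    [MonoidalCategory T] [SymmetricCategory T] [TensorTriangulated T] [MonoidalClosed T]
    [HasCoproducts.{0} T] [HasProducts.{0} T] [StableCat T]
    {F : SpaceFunctor T} {e : F.S.obj CCF ≅ (stdEven T).L} {p : ℕ} [hp : Fact p.Prime]

/-- the sphere of dimension `|v_h|` -/
def sphV (F : SpaceFunctor T) (p h : ℕ) [hp : Fact p.Prime] :
    (stdEven T).S ((p ^ h : ℤ) - 1) ≅ (cmodT F).G.obj (SphF (2 * (p ^ h - 1))) :=
  sI T _ ≪≫ eqToIso (by
    have : 1 ≤ p ^ h := Nat.one_le_pow _ _ hp.out.pos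
    congr 2
    push_cast [Nat.cast_sub this]
    rfl) ≪≫ (sphIso F (2 * (p ^ h - 1))).symm

/-- Realisation of a tower by finite cell spaces. -/
theorem real_tow (K : Model p C) (M : MUMon F (stdEven T) e) (b : MUBasis M.V) (h2 : p ≠ 2)
    {Z : T} {iC : 𝟙_ T ⟶ Z} {δ : Z ⟶ (𝟙_ T)⟦(1 : ℤ)⟧}
    (hC : Triangle.mk ((p : ℤ) • 𝟙 (𝟙_ T)) iC δ ∈ distTriang T)
    {h : ℕ} {V : C} {i : 𝟙_ C ⟶ V} (H : K.toCMod.Tow p h i) :
    1 ≤ h ∧ ∃ (Q W : FCat) (κ : Q ⟶ W) (φ : K.G.obj W ≅ V ⊗ K.G.obj Q) (V' : T)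
      (i' : 𝟙_ T ⟶ V') (ψ : (cmodT F).G.obj W ≅ V' ⊗ (cmodT F).G.obj Q),
      IsInv (K.G.obj Q) ∧ IsInv ((cmodT F).G.obj Q) ∧ K.toCMod.Md κ i φ ∧ (cmodT F).Md κ i' ψ ∧
        IsST (M.data b) p iC h i' := by
  induction H with
  | one hc =>
    obtain ⟨φ, hφ⟩ := CMod.exists_md_one p hc
    obtain ⟨ψ, hψ⟩ := CMod.exists_md_one (K := cmodT F) p ⟨δ, hC⟩
    exact ⟨le_rfl, RRF, _, _, φ, Z, iC, ψ, inferInstance, inferInstance, hφ, hψ,
      isST_one h2 hC⟩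
  | @succ h V V₁ P i H ϑ f nz g hc ih =>
    obtain ⟨hh, Q, W, κ, φ, V', i', ψ, q1, q2, hφ, hψ, hS⟩ := ih
    refine ⟨by omega, ?_⟩
    have hc1 : K.Cn (ϑ.inv ▷ V ≫ f) g :=
      K.cn_iso (whiskerRightIso ϑ V) (Iso.refl _) (Iso.refl _)
        (by simp) (by simp) hc
    have nz1 : K.toCMod.NZ ((ρ_ _).inv ≫ K.G.obj (SphF (2 * (p ^ h - 1))) ◁ i ≫
        ϑ.inv ▷ V ≫ f) := by
      have := nz.iso_comp ϑ.symm
      rwa [Iso.symm_hom, rightUnitor_inv_naturality_assoc, ← whisker_exchange_assoc] at this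
    generalize ϑ.inv ▷ V ≫ f = f₁ at hc1 nz1
    obtain ⟨n, a, c, hc0, ha⟩ := K.exists_rp φ f₁
    obtain ⟨f', ha'⟩ := CMod.exists_rp a ((cmodT F).susp ψ (SphF n))
    have nz2 : (cmodT F).NZ ((ρ_ _).inv ≫ _ ◁ i' ≫ f') := by
      refine nz_transfer K.toCMod F (ha.bottom (hφ.susp _)) (ha'.bottom (hψ.susp _)) ?_
      rw [Preadditive.comp_zsmul, Preadditive.comp_zsmul]
      exact nz1.zsmul hc0
    have hne := hur_ne_zero M ((isCpt_sph _).of_iso (sI T ((p ^ h : ℤ) - 1)).symm)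
      (nz2.iso_comp (sphV F p h))
    obtain ⟨m, hm0, hmp, hdet⟩ := exists_det_of_ne hS.cyc hh _ hne
    obtain ⟨V₂, j, δ₂, hΔ⟩ := distinguished_cocone_triangle
      ((sphV F p h).hom ▷ V' ≫ ((m : ℤ) • f'))
    have hS' := isST_next hS hdet (f := (sphV F p h).hom ▷ V' ≫ ((m : ℤ) • f')) (by
      rw [whisker_exchange_assoc, Preadditive.comp_zsmul, Preadditive.comp_zsmul,
        Preadditive.comp_zsmul, ← rightUnitor_naturality_assoc, Iso.hom_inv_id_assoc]) hΔ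
    have hc2 : (cmodT F).Cn ((m : ℤ) • f') j :=
      (cmodT F).cn_iso (whiskerRightIso (sphV F p h) V') (Iso.refl _) (Iso.refl _)
        (Category.comp_id _) (by simp) ⟨δ₂, hΔ⟩
    obtain ⟨ψ', hψ'⟩ := (ha'.mulSusp m).cone hc2 ((hψ.susp _).susp _)
    obtain ⟨φ', hφ'⟩ := (ha.mulSusp m).cone
      (CMod.cn_zsmul (CMod.cn_zsmul hc1 hc0) (K.unit m hm0 hmp)) ((hφ.susp _).susp _)
    exact ⟨_, _, _, φ', V₂, _, ψ', inferInstance, inferInstance, hφ', hψ', hS'⟩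

end

/-- **LINK.** A tower in a model gives Smith-Toda complexes in every stable homotopy category. -/
theorem hasV_of_tow {p n : ℕ} (hp : p.Prime) (h2 : p ≠ 2) (K : Model p C) {V : C}
    {i : 𝟙_ C ⟶ V} (H : K.toCMod.Tow p (n + 1) i) {T : St.SHCat} (S : St.Susp T) :
    P257.St.HasV S p n := by
  have : Fact p.Prime := ⟨hp⟩
  obtain ⟨M⟩ := nonempty_MUMon S.toSpaceFunctor (stdEven T.C) (M.lineIso S.toSpaceFunctor)
  obtain ⟨b⟩ := M.nonempty_muBasis
  have U : H702.MUFam (P251.M.lineIso S.toSpaceFunctor) (M.data b) := by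
    refine ⟨M.fam, ?_, ?_, ?_⟩
    · rw [M.data_law b, M.ori_eq, M.orient_eq]
      rfl
    · intro K _ _ W'
      obtain ⟨u, hu, _, h⟩ := M.exists_univ_of_cls W' (clsOfFam _ W') (fun _ _ => rfl)
      exact ⟨u, hu, h⟩
    · intro K _ _ u u' hu hu' h
      exact @H702.univ_unique T.C _ _ _ _ _ _ _ _ _ _ _ _ _ _ _ (stdEven T.C) _ M K _ _ u u'
        hu hu' h
  obtain ⟨Z, iC, δ, hC⟩ := distinguished_cocone_triangle ((p : ℤ) • 𝟙 (𝟙_ T.C))
  obtain ⟨-, _, _, _, _, _, _, _, -, -, -, -, hS⟩ := real_tow K M b h2 hC H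
  exact H702.hasV_of_isST h2 (M.muUniv b) U hS

end Vale.Agent.P257.L
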