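import Vale.Agent.P251.I.CofTriangle
import Vale.Agent.P251.M.ThFCInst
import Vale.Agent.P251.M.EvenPer
import Vale.Agent.P251.M.SpaceConn
import Vale.Agent.P251.G.Pinch

/-!
# P257, block LINK: categories with spaces and cones, towers

* `CMod C` : a homotopy invariant braided functor `G` from finite cell spaces to `C` and a class
  `Cn f g` of cone sequences `A ⟶ B ⟶ Z` which contains the mapping cones and determines `Z`;
* `Model p C` : moreover the integers `0 < m < p` are invertible and `G` is stably full up to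
  invertible integers;
* `CMod.NZ x` : the product of `x` with the bottom cell of each Thom space is not zero;
* `CMod.Tow p h i` : towers of cones of self maps of degree `2 (p^k - 1)`, `k < h`.
-/

open CategoryTheory MonoidalCategory Limits Functor.LaxMonoidal Functor.OplaxMonoidal

universe v u

namespace Vale.Agent.P257.L

open Vale.Agent.P251 Vale.Agent.P251.G Vale.Agent.P251.G.LC Vale.Agent.P251.I Vale.Agent.P251.M

/-- A category with spaces and cones. -/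
structure CMod (C : Type u) [Category.{v} C] [Preadditive C] [MonoidalCategory C]
    [SymmetricCategory C] where
  /-- the spaces -/
  G : FCat ⥤ C
  [braided : G.Braided]
  map_eq {X Y : FCat} (f g : X ⟶ Y) : Homotopic f.hom g.hom → G.map f = G.map g
  map_zero {X Y : FCat} (f : X ⟶ Y) : f.hom = 0 → G.map f = 0
  inv : IsInv (G.obj RRF)
  mfold (m : ℕ) : G.map (FCat.hom (mfold m) : RRF ⟶ RRF) = (m : ℤ) • 𝟙 (G.obj RRF)
  /-- the cone sequences -/
  Cn : ∀ {A B Z : C}, (A ⟶ B) → (B ⟶ Z) → Prop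
  cn_iso {A B Z A' B' Z' : C} {f : A ⟶ B} {g : B ⟶ Z} {f' : A' ⟶ B'} {g' : B' ⟶ Z'}
    (a : A ≅ A') (b : B ≅ B') (z : Z ≅ Z') :
    f ≫ b.hom = a.hom ≫ f' → g ≫ z.hom = b.hom ≫ g' → Cn f g → Cn f' g'
  cn_whisker {A B Z : C} {f : A ⟶ B} {g : B ⟶ Z} (X : FCat) :
    Cn f g → Cn (f ▷ G.obj X) (g ▷ G.obj X)
  cn_cone {X Y : FCat} (f : X ⟶ Y) : Cn (G.map f) (G.map (coneInrF f))
  cn_uniq {A B Z Z' : C} {f : A ⟶ B} {g : B ⟶ Z} {g' : B ⟶ Z'} :
    Cn f g → Cn f g' → ∃ e : Z ≅ Z', g ≫ e.hom = g'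

attribute [instance] CMod.braided CMod.inv

/-- A model of the category of finite spectra with some primes different from `p` inverted. -/
structure Model (p : ℕ) (C : Type u) [Category.{v} C] [Preadditive C] [MonoidalCategory C]
    [SymmetricCategory C] extends CMod C where
  unit (m : ℕ) : 0 < m → m < p → IsIso ((m : ℤ) • 𝟙 (𝟙_ C))
  full {X Y : FCat} (g : G.obj X ⟶ G.obj Y) :
    ∃ (n : ℕ) (h : X ⊗ SphF n ⟶ Y ⊗ SphF n) (c : ℤ), IsIso (c • 𝟙 (𝟙_ C)) ∧
      μ G X (SphF n) ≫ G.map h = c • (g ▷ G.obj (SphF n) ≫ μ G Y (SphF n))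

namespace CMod

variable {C : Type u} [Category.{v} C] [Preadditive C] [MonoidalCategory C]
  [SymmetricCategory C] (K : CMod C)

instance : HInv K.G := ⟨K.map_eq⟩

/-- The product of `x` with the bottom cell `Th n (Fin n) ⟶ Th n (Fin (n + n))` is not zero. -/
def NZ {A V : C} (x : A ⟶ V) : Prop :=
  ∀ n : ℕ, TO.j K.G (I := Fin n) (J := Fin (n + n)) n (by simp) ⊗ₘ x ≠ 0

/-- Towers of cones of self maps. -/
inductive Tow (p : ℕ) : ∀ (_ : ℕ) {V : C}, (𝟙_ C ⟶ V) → Prop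
  | one {Z : C} {i : 𝟙_ C ⟶ Z} (hc : K.Cn ((p : ℤ) • 𝟙 (𝟙_ C)) i) : Tow p 1 i
  | succ {h : ℕ} {V V' P : C} {i : 𝟙_ C ⟶ V} (H : Tow p h i)
      (e : P ≅ K.G.obj (SphF (2 * (p ^ h - 1)))) (f : P ⊗ V ⟶ V)
      (nz : K.NZ ((ρ_ P).inv ≫ P ◁ i ≫ f)) (g : V ⟶ V') (hc : K.Cn f g) :
      Tow p (h + 1) (i ≫ g)

instance inv_tensor (X Y : FCat) [IsInv (K.G.obj X)] [IsInv (K.G.obj Y)] :
    IsInv (K.G.obj (X ⊗ Y)) := IsInv.of_iso (Functor.Monoidal.μIso K.G X Y)

instance inv_sph : ∀ n : ℕ, IsInv (K.G.obj (SphF n))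
  | 0 => IsInv.of_iso (K.G.mapIso (fcIso (X := SphF 0) (Y := 𝟙_ FCat) sphZeroIso) ≪≫
      (Functor.Monoidal.εIso K.G).symm).symm
  | n + 1 => by
    have := inv_sph n
    exact IsInv.of_iso (K.G.mapIso (fcIso (X := SphF (n + 1)) (Y := SphF n ⊗ RRF)
      ((sphTensor n 1).symm ≪≫ whiskerLeftIso (Sph n) lineSph))).symm

end CMod

end Vale.Agent.P257.L
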