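import Vale.Agent.P257.L.Tri
import Vale.Agent.P257.L.Defs

/-!
# P257, block LINK: towers up to weak equivalences

`Tests S` : a class of test objects (spheres), `WE` : the maps which are bijective on maps out of
test objects, `WTow` : towers in which every step is only given up to such maps.
`WTow.exists_tow` : a weak tower can be replaced by a tower.
-/

open CategoryTheory MonoidalCategory Limits

universe v u

set_option linter.unusedSectionVars false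

namespace Vale.Agent.P257.L

open Vale.Agent.P251 Vale.Agent.P251.G Vale.Agent.P251.G.LC Vale.Agent.P251.I Vale.Agent.P251.M

variable {C : Type u} [Category.{v} C] [MonoidalCategory C]

/-- a class of test objects, closed under suspension and desuspension -/
structure Tests (S : C) where
  /-- the test objects -/
  P : C → Prop
  up {A : C} : P A → ∃ A', P A' ∧ Nonempty (A' ≅ A ⊗ S)
  dn {A : C} : P A → ∃ A', P A' ∧ Nonempty (A ≅ A' ⊗ S)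

namespace Tests

variable {S : C} (E : Tests S) {A B Z X Y X' Y' P : C}

/-- the weak equivalences -/
def WE (φ : X ⟶ Y) : Prop := ∀ T, E.P T → Bij T φ

/-- the objects which see weak equivalences as isomorphisms -/
def Sm (A : C) : Prop := ∀ ⦃X Y : C⦄ (φ : X ⟶ Y), E.WE φ → Bij A φ

variable {E} {φ : X ⟶ Y} {ψ : Y ⟶ Z}

theorem WE.of_isIso (φ : X ⟶ Y) [IsIso φ] : E.WE φ := fun T _ => Bij.of_isIso T φ

theorem WE.comp (h : E.WE φ) (k : E.WE ψ) : E.WE (φ ≫ ψ) := fun T t => (h T t).comp (k T t)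

theorem WE.of_comp_left (h : E.WE φ) (k : E.WE (φ ≫ ψ)) : E.WE ψ :=
  fun T t => (h T t).of_comp_left (k T t)

theorem WE.of_comp_right (h : E.WE ψ) (k : E.WE (φ ≫ ψ)) : E.WE φ :=
  fun T t => (h T t).of_comp_right (k T t)

theorem WE.of_arrow {φ' : X' ⟶ Y'} (h : E.WE φ) (a : X ≅ X') (b : Y ≅ Y')
    (w : φ ≫ b.hom = a.hom ≫ φ') : E.WE φ' := fun T t => (h T t).of_arrow a b w

theorem Sm.of_test (h : E.P A) : E.Sm A := fun _ _ _ k => k A h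

theorem Sm.of_iso (h : E.Sm A) (e : B ≅ A) : E.Sm B := fun _ _ φ k => (h φ k).of_iso e

variable [SymmetricCategory C] [IsInv S]

theorem WE.susp (h : E.WE φ) : E.WE (φ ▷ S) := fun _ t => by
  obtain ⟨T', t', ⟨e⟩⟩ := E.dn t
  exact ((bij_whiskerRight_iff S).2 (h T' t')).of_iso e

theorem WE.of_susp (h : E.WE (φ ▷ S)) : E.WE φ := fun _ t => by
  obtain ⟨T', t', ⟨e⟩⟩ := E.up t
  exact (bij_whiskerRight_iff S).1 ((h T' t').of_iso e.symm)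

theorem Sm.susp (h : E.Sm A) : E.Sm (A ⊗ S) := fun X Y φ k => by
  let e : S ⊗ (tensorLeft S).objPreimage (𝟙_ C) ≅ 𝟙_ C := (tensorLeft S).objObjPreimageIso _
  let j : ∀ X : C, X ≅ (X ⊗ (tensorLeft S).objPreimage (𝟙_ C)) ⊗ S := fun X =>
    (α_ _ _ _ ≪≫ whiskerLeftIso X (β_ _ _ ≪≫ e) ≪≫ ρ_ X).symm
  have w : φ ≫ (j Y).hom = (j X).hom ≫ (φ ▷ _) ▷ S := by
    simp only [j, Iso.symm_hom, Iso.comp_inv_eq, Category.assoc]
    rw [Iso.eq_inv_comp]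
    simp only [Iso.trans_hom, whiskerLeftIso_hom, Category.assoc]
    rw [associator_naturality_left_assoc, ← whisker_exchange_assoc, rightUnitor_naturality]
  exact ((bij_whiskerRight_iff S).2 (h _ (k.of_arrow _ _ w).of_susp)).of_arrow (j X).symm
    (j Y).symm (by rw [Iso.symm_hom, Iso.symm_hom, Iso.comp_inv_eq, Category.assoc, w,
      Iso.inv_hom_id_assoc])

theorem WE.pw (h : E.WE φ) : ∀ n : ℕ, E.WE (Pw S n ◁ φ)
  | 0 => h.of_arrow (λ_ X).symm (λ_ Y).symm (leftUnitor_inv_naturality φ)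
  | n + 1 => (WE.pw h n).susp.of_arrow (φ' := (S ⊗ Pw S n) ◁ φ) (β_ _ _ ≪≫ (α_ _ _ _).symm)
      (β_ _ _ ≪≫ (α_ _ _ _).symm) (by
        rw [Iso.trans_hom, Iso.trans_hom, BraidedCategory.braiding_naturality_left_assoc,
          Category.assoc]
        exact congrArg (_ ≫ ·) (associator_inv_naturality_right _ _ _))

theorem Sm.pw (h : E.Sm A) : ∀ n : ℕ, E.Sm (Pw S n ⊗ A)
  | 0 => h.of_iso (λ_ A)
  | n + 1 => (Sm.pw h n).susp.of_iso (α_ _ _ _ ≪≫ β_ _ _)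

theorem WE.sph (h : E.WE φ) {n : ℕ} (e : P ≅ Pw S n) : E.WE (P ◁ φ) :=
  (h.pw n).of_arrow (whiskerRightIso e.symm X) (whiskerRightIso e.symm Y)
    (whisker_exchange _ _)

theorem Sm.sph (h : E.Sm A) {n : ℕ} (e : P ≅ Pw S n) : E.Sm (P ⊗ A) :=
  (h.pw n).of_iso (whiskerRightIso e A)

variable [Preadditive C] {D : TriStr S} {f : A ⟶ B} {g : B ⟶ Z} {q : Z ⟶ A ⊗ S}

theorem Sm.cone (h : D.Tri f g q) (hA : E.Sm A) (hB : E.Sm B) : E.Sm Z := fun _ _ φ k =>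
  TriStr.five' h (hA φ k) (hB φ k) (hA.susp φ k) (hB.susp φ k)

variable [MonoidalPreadditive C] {A' B' Z' : C} {f' : A' ⟶ B'} {g' : B' ⟶ Z'} {q' : Z' ⟶ A' ⊗ S}

theorem WE.five (h : D.Tri f g q) (h' : D.Tri f' g' q') {a : A ⟶ A'} {b : B ⟶ B'} {c : Z ⟶ Z'}
    (w₁ : f ≫ b = a ≫ f') (w₂ : g ≫ c = b ≫ g') (w₃ : q ≫ a ▷ S = c ≫ q') (ha : E.WE a)
    (hb : E.WE b) : E.WE c := fun T t =>
  TriStr.five h h' w₁ w₂ w₃ (ha T t) (hb T t) (ha.susp T t) (hb.susp T t)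

theorem WE.cone (h : D.Tri f g q) (h' : D.Tri f' g' q') {a : A ⟶ A'} {b : B ⟶ B'}
    (w : f ≫ b = a ≫ f') (ha : E.WE a) (hb : E.WE b) :
    ∃ c : Z ⟶ Z', g ≫ c = b ≫ g' ∧ E.WE c := by
  obtain ⟨c, w₂, w₃⟩ := D.tr3 a b h h' w
  exact ⟨c, w₂, WE.five h h' w w₂ w₃ ha hb⟩

end Tests

namespace CMod

variable [Preadditive C] [SymmetricCategory C] (K : CMod C)

/-- the spheres are the powers of the circle -/
noncomputable def sphPw : ∀ n : ℕ, K.G.obj (SphF n) ≅ Pw (K.G.obj RRF) n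
  | 0 => K.G.mapIso (fcIso (X := SphF 0) (Y := 𝟙_ FCat) sphZeroIso) ≪≫
      (Functor.Monoidal.εIso K.G).symm
  | n + 1 => K.G.mapIso (fcIso (X := SphF (n + 1)) (Y := SphF n ⊗ RRF)
      ((sphTensor n 1).symm ≪≫ whiskerLeftIso (Sph n) lineSph)) ≪≫
      (Functor.Monoidal.μIso K.G _ _).symm ≪≫ β_ _ _ ≪≫ whiskerLeftIso _ (sphPw n)

variable {K} [MonoidalPreadditive C]

theorem NZ.of_comp {A A' V V' O : C} {x : A ⟶ V} {y : A' ⟶ A ⊗ O} {φ : V ⊗ O ⟶ V'}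
    (h : K.NZ (y ≫ x ▷ O ≫ φ)) : K.NZ x := fun n h0 => h n (by
  rw [← Category.id_comp (TO.j K.G n _), ← tensorHom_comp_tensorHom,
    ← Category.comp_id (TO.j K.G n _), ← tensorHom_comp_tensorHom, ← tensorHom_id x,
    ← cancel_mono (𝟙 _), ← Iso.inv_hom_id_assoc (α_ _ A O) (_ ⊗ₘ x ⊗ₘ 𝟙 O),
    ← associator_naturality, h0, tensorHom_id, MonoidalPreadditive.zero_whiskerRight]
  simp)

variable (K) (D : TriStr (K.G.obj RRF)) (E : Tests (K.G.obj RRF))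

/-- Towers up to weak equivalences, with bottom cell `O`. -/
inductive WTow (p : ℕ) (O : C) : ∀ (_ : ℕ) {V : C}, (O ⟶ V) → Prop
  | one {Z : C} {i : O ⟶ Z} {q : Z ⟶ O ⊗ K.G.obj RRF} (hc : D.Tri ((p : ℤ) • 𝟙 O) i q) :
      WTow p O 1 i
  | comp {h : ℕ} {V V' : C} {i : O ⟶ V} (H : WTow p O h i) (φ : V ⟶ V') (hφ : E.WE φ) :
      WTow p O h (i ≫ φ)
  | of_comp {h : ℕ} {V V' : C} (i : O ⟶ V) (φ : V ⟶ V') (hφ : E.WE φ) (H : WTow p O h (i ≫ φ)) :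
      WTow p O h i
  | succ {h : ℕ} {V V' P A : C} {i : O ⟶ V} (H : WTow p O h i)
      (e : P ≅ K.G.obj (SphF (2 * (p ^ h - 1)))) (s : A ⟶ P ⊗ V) (hs : E.WE s) (y : P ⊗ O ⟶ A)
      (hy : y ≫ s = P ◁ i) (f : A ⟶ V) (nz : K.NZ (y ≫ f)) {g : V ⟶ V'}
      {q : V' ⟶ A ⊗ K.G.obj RRF} (hc : D.Tri f g q) : WTow p O (h + 1) (i ≫ g)

variable {K D E}

/-- A weak tower can be replaced by a tower. -/
theorem WTow.exists_tow
    (hD : ∀ {A B Z : C} {f : A ⟶ B} {g : B ⟶ Z} {q : Z ⟶ A ⊗ K.G.obj RRF}, D.Tri f g q → K.Cn f g)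
    {p h : ℕ} {O V : C} [IsInv O] (hO : E.Sm O) {i : O ⟶ V} (H : K.WTow D E p O h i) :
    ∃ (V' : C) (i' : 𝟙_ C ⟶ V') (φ : V' ⊗ O ⟶ V), K.Tow p h i' ∧ E.Sm (V' ⊗ O) ∧ E.WE φ ∧
      (λ_ O).inv ≫ i' ▷ O ≫ φ = i := by
  induction H with
  | one hc =>
    obtain ⟨Z', i', q', h'⟩ := D.ex ((p : ℤ) • 𝟙 (𝟙_ C))
    obtain ⟨c, h1, h2⟩ := Tests.WE.cone (E := E) (TriStr.whiskerRight h' O) hc
      (a := (λ_ O).hom) (b := (λ_ O).hom) (by
        rw [show ((p : ℤ) • 𝟙 (𝟙_ C)) ▷ O = (p : ℤ) • 𝟙 (𝟙_ C ⊗ O) from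
          ((tensorRight O).map_zsmul).trans (by simp)]
        simp) (.of_isIso _) (.of_isIso _)
    exact ⟨Z', i', c, .one (hD h'),
      .cone (TriStr.whiskerRight h' O) (hO.of_iso (λ_ O)) (hO.of_iso (λ_ O)), h2, by
        rw [h1, Iso.inv_hom_id_assoc]⟩
  | comp H ψ hψ ih =>
    obtain ⟨V', i', φ, h1, h2, h3, h4⟩ := ih
    exact ⟨V', i', φ ≫ ψ, h1, h2, h3.comp hψ, by rw [← h4]; simp⟩
  | of_comp i ψ hψ H ih =>
    obtain ⟨V', i', φ, h1, h2, h3, h4⟩ := ih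
    obtain ⟨φ, rfl⟩ := (h2 ψ hψ).surj φ
    exact ⟨V', i', φ, h1, h2, hψ.of_comp_right h3, (hO ψ hψ).inj (by rw [← h4]; simp)⟩
  | @succ h V V₁ P A i H e s hs y hy f nz g q hc ih =>
    obtain ⟨V', i', φ, h1, h2, h3, h4⟩ := ih
    let e' := e ≪≫ K.sphPw _
    have h5 : E.Sm ((P ⊗ V') ⊗ O) := (h2.sph e').of_iso (α_ _ _ _)
    obtain ⟨σ, hσ⟩ := (h5 s hs).surj ((α_ _ _ _).hom ≫ P ◁ φ)
    have h6 : E.WE σ := hs.of_comp_right (hσ ▸ (Tests.WE.of_isIso _).comp (h3.sph e'))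
    obtain ⟨f₁, hf⟩ := (h5 φ h3).surj (σ ≫ f)
    obtain ⟨f', rfl⟩ := whiskerRight_surj O f₁
    obtain ⟨Z', g', q', h'⟩ := D.ex f'
    obtain ⟨c, h7, h8⟩ := Tests.WE.cone (TriStr.whiskerRight h' O) hc hf h6 h3
    have h9 : y = ((ρ_ P).inv ≫ P ◁ i') ▷ O ≫ σ := ((hO.sph e') s hs).inj (by
      rw [hy, Category.assoc, hσ, ← h4]
      simp)
    refine ⟨Z', i' ≫ g', c, .succ h1 e f' (NZ.of_comp (y := 𝟙 _) (O := O) (φ := φ) ?_) g' (hD h'),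
      .cone (TriStr.whiskerRight h' O) h5 h2, h8, ?_⟩
    · rw [Category.id_comp, ← Category.assoc (ρ_ P).inv, comp_whiskerRight, Category.assoc, hf,
        ← Category.assoc, ← h9]
      exact nz
    · rw [comp_whiskerRight, Category.assoc, h7, ← h4]
      simp

end CMod

end Vale.Agent.P257.L
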