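import Vale.Agent.P257.L.Loc
import Vale.Agent.P257.L.WTow
import Vale.Agent.P257.L.Main
import Vale.Agent.P257.C.Deg
import Vale.Agent.P257.C.TConn
import Vale.Agent.P251.H.SpaceHomM

/-!
# P257, block LINK: localisations are models

* `PLoc D st` : `st` is the localisation of the homotopy category of `M` at the maps `D.tk`;
* `PLoc.loc`, `PLoc.model` : then `st` is a `Loc`, and a `Model p` if `D.lam` is a multiple of the
  structure map of `M` which is divisible by the primes below `p`;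
* `PLoc.hasV` : a weak tower gives `HasV`.
-/

open CategoryTheory MonoidalCategory Limits Functor.LaxMonoidal Functor.OplaxMonoidal

universe v u v' u' v'' u''

set_option linter.unusedSectionVars false

namespace Vale.Agent.P257.L

open Vale.Agent.P251 Vale.Agent.P251.G Vale.Agent.P251.H Vale.Agent.P251.H.StabInput
  Vale.Agent.P251.I Vale.Agent.P251.M Vale.Agent.P257.C

variable {M : Type u} [Category.{v} M] [MonoidalCategory M] [SymmetricCategory M]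
    [MonoidalClosed M] [HasZeroMorphisms M] [HasColimitsOfSize.{0, 0} M] [StabInput M]
    {C : Type u'} [Category.{v'} C] [Preadditive C] [MonoidalCategory C] [SymmetricCategory C]
    [MonoidalPreadditive C] {st : M ⥤ C} [st.Braided]

/-- The category with spaces and cones given by a localisation. -/
noncomputable def Loc.cmod (H : Loc st) (hs : SphFun (J M ⋙ st)) (hi : IsInv (st.obj (S M))) :
    CMod C where
  G := FCP.ι ⋙ J M ⋙ st
  map_eq _ _ h := hs.htpy h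
  map_zero f h := (congrArg (J M ⋙ st).map h).trans (hs.zero _ _)
  inv := hi
  mfold m := (hs.map_mfold m).trans (natCast_zsmul _ _).symm
  Cn f g := ∃ q, H.triStr.Tri f g q
  cn_iso a b z h1 h2 := fun ⟨q, h⟩ =>
    ⟨z.inv ≫ q ≫ a.hom ▷ _, H.triStr.iso a b z h1 h2 (by simp) h⟩
  cn_whisker _ := fun ⟨_, h⟩ => ⟨_, TriStr.whiskerRight h _⟩
  cn_cone f := ⟨_, H.tri_cone (isCone_J f.hom)⟩
  cn_uniq := fun ⟨_, h⟩ ⟨_, h'⟩ => (TriStr.uniq h h').imp fun _ k => k.1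

theorem map_tw_zsmul {U : M} {w w' : U ⟶ 𝟙_ M} {c : ℤ} (h : st.map w' = c • st.map w) (A : M) :
    st.map (tw w' A) = c • st.map (tw w A) := by
  rw [tw, tw, st.map_comp, st.map_comp, Functor.Monoidal.map_whiskerRight,
    Functor.Monoidal.map_whiskerRight, h, show (c • st.map w) ▷ st.obj A = c • st.map w ▷ st.obj A
      from (tensorRight _).map_zsmul]
  simp only [Preadditive.zsmul_comp, Preadditive.comp_zsmul]

theorem proj_tk_succ (D : StabObj (HM M)) {l : D.U.obj ⟶ 𝟙_ M} (hl : (HM.proj M).map l = D.lam)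
    {k : ℕ} {A : M} {t : (D.coPt.pw k ⟨A⟩).obj ⟶ A} (ht : (HM.proj M).map t = D.coPt.tk k ⟨A⟩) :
    (HM.proj M).map (tw l (D.coPt.pw k ⟨A⟩).obj ≫ t) = D.coPt.tk (k + 1) ⟨A⟩ := by
  rw [CoPt.tk_succ, ← ht]
  change _ = (D.lam ▷ _ ≫ (λ_ _).hom) ≫ _
  rw [← hl]
  rfl

theorem exists_tw (D : StabObj (HM M)) {l : D.U.obj ⟶ 𝟙_ M} (hl : (HM.proj M).map l = D.lam)
    [IsIso (st.map l)] (k : ℕ) (A : M) :
    ∃ (U : M) (w : U ⟶ 𝟙_ M) (e : U ⊗ A ⟶ (D.coPt.pw k ⟨A⟩).obj)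
      (t : (D.coPt.pw k ⟨A⟩).obj ⟶ A), (HM.proj M).map t = D.coPt.tk k ⟨A⟩ ∧
      e ≫ t = tw w A ∧ IsIso (st.map w) := by
  induction k with
  | zero => exact ⟨𝟙_ M, 𝟙 _, (λ_ _).hom, 𝟙 A, (D.coPt.tk_zero ⟨A⟩).symm,
      (Category.comp_id _).trans (by simp [tw]), inferInstance⟩
  | succ k ih =>
    obtain ⟨U, w, e, t, h1, h2, h3⟩ := ih
    have := isIso_map_tw l st U
    refine ⟨D.U.obj ⊗ U, tw l U ≫ w, (α_ _ _ _).hom ≫ D.U.obj ◁ e, _, proj_tk_succ D hl h1, ?_,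
      by rw [st.map_comp]; infer_instance⟩
    rw [tw_tw, ← h2, ← tw_naturality_assoc]
    exact Category.assoc _ _ _

theorem exists_cmp (D D' : StabObj (HM M)) {l : D.U.obj ⟶ 𝟙_ M} (hl : (HM.proj M).map l = D.lam)
    {l' : D'.U.obj ⟶ 𝟙_ M} (hl' : (HM.proj M).map l' = D'.lam) (e : D.U.obj ⟶ D'.U.obj) {c : ℤ}
    (hc : st.map (e ≫ l') = c • st.map l) [IsIso (st.map l)] (k : ℕ) (A : M) :
    ∃ (ε : (D.coPt.pw k ⟨A⟩).obj ⟶ (D'.coPt.pw k ⟨A⟩).obj) (t : (D.coPt.pw k ⟨A⟩).obj ⟶ A)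
      (t' : (D'.coPt.pw k ⟨A⟩).obj ⟶ A), (HM.proj M).map t = D.coPt.tk k ⟨A⟩ ∧
      (HM.proj M).map t' = D'.coPt.tk k ⟨A⟩ ∧ st.map (ε ≫ t') = c ^ k • st.map t ∧
      IsIso (st.map t) := by
  induction k with
  | zero => exact ⟨𝟙 A, 𝟙 A, 𝟙 A, (D.coPt.tk_zero ⟨A⟩).symm, (D'.coPt.tk_zero ⟨A⟩).symm,
      (congrArg _ (Category.comp_id _)).trans (by rw [pow_zero, one_smul]),
      (inferInstance : IsIso (st.map (𝟙 A)))⟩
  | succ k ih =>
    obtain ⟨ε, t, t', h1, h2, h3, h4⟩ := ih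
    have := isIso_map_tw l st (D.coPt.pw k ⟨A⟩).obj
    refine ⟨e ▷ _ ≫ D'.U.obj ◁ ε, _, _, proj_tk_succ D hl h1, proj_tk_succ D' hl' h2, ?_,
      by rw [st.map_comp]; infer_instance⟩
    have h5 : (e ▷ _ ≫ D'.U.obj ◁ ε) ≫ tw l' (D'.coPt.pw k ⟨A⟩).obj ≫ t' =
        tw (e ≫ l') (D.coPt.pw k ⟨A⟩).obj ≫ ε ≫ t' := by
      rw [Category.assoc, tw_naturality_assoc]
      simp [tw]
    refine (congrArg st.map h5).trans ?_
    rw [st.map_comp, h3, map_tw_zsmul hc, Preadditive.zsmul_comp, Preadditive.comp_zsmul,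
      smul_smul, ← st.map_comp, pow_succ']

variable (st) in
/-- `st` is the localisation of the homotopy category at the maps `D.tk` -/
structure PLoc (D : StabObj (HM M)) (l : D.U.obj ⟶ 𝟙_ M) : Prop where
  lam : (HM.proj M).map l = D.lam
  iso : IsIso (st.map l)
  htpy {A X : M} {f g : A ⟶ X} : MHtpy f g → st.map f = st.map g
  zero (A X : M) : st.map (0 : A ⟶ X) = 0
  sph : SphFun (J M ⋙ st)
  surj (X : C) : ∃ A : M, Nonempty (st.obj A ≅ X)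
  frac {A X : M} (φ : st.obj A ⟶ st.obj X) : ∃ (k : ℕ) (f : (D.coPt.pw k ⟨A⟩).obj ⟶ X),
    ∀ t : (D.coPt.pw k ⟨A⟩).obj ⟶ A, (HM.proj M).map t = D.coPt.tk k ⟨A⟩ → st.map t ≫ φ = st.map f
  eq {A X : M} {a b : A ⟶ X} : st.map a = st.map b →
    ∃ k, D.coPt.tk k ⟨A⟩ ≫ (HM.proj M).map a = D.coPt.tk k ⟨A⟩ ≫ (HM.proj M).map b

theorem isIso_zsmul_of {A : C} {x : A ⟶ 𝟙_ C} {c : ℤ} (h : IsIso (c • x)) :
    IsIso (c • 𝟙 (𝟙_ C)) ∧ IsIso x := by
  have e1 : (inv (c • x) ≫ x) ≫ (c • 𝟙 (𝟙_ C)) = 𝟙 _ := by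
    rw [Category.assoc, Preadditive.comp_zsmul, Category.comp_id, IsIso.inv_hom_id]
  have e2 : (c • 𝟙 (𝟙_ C)) ≫ (inv (c • x) ≫ x) = 𝟙 _ := by
    rw [Preadditive.zsmul_comp, Category.id_comp, ← Preadditive.comp_zsmul, IsIso.inv_hom_id]
  have h1 : IsIso (c • 𝟙 (𝟙_ C)) := ⟨_, e2, e1⟩
  have h2 : IsIso (x ≫ (c • 𝟙 (𝟙_ C))) := by
    rwa [Preadditive.comp_zsmul, Category.comp_id]
  exact ⟨h1, IsIso.of_isIso_comp_right x (c • 𝟙 (𝟙_ C))⟩

theorem isIso_zsmul_pow {c : ℤ} (h : IsIso (c • 𝟙 (𝟙_ C))) (k : ℕ) :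
    IsIso (c ^ k • 𝟙 (𝟙_ C)) := by
  induction k with
  | zero => rw [pow_zero, one_smul]; infer_instance
  | succ k ih =>
    rw [show c ^ (k + 1) • 𝟙 (𝟙_ C) = (c ^ k • 𝟙 (𝟙_ C)) ≫ (c • 𝟙 (𝟙_ C)) by
      rw [Preadditive.zsmul_comp, Category.id_comp, smul_smul, pow_succ]]
    infer_instance

theorem isIso_zsmul_dvd {c m : ℤ} (h : IsIso (c • 𝟙 (𝟙_ C))) {k : ℕ} (hm : m ∣ c ^ k) :
    IsIso (m • 𝟙 (𝟙_ C)) := by
  obtain ⟨d, hd⟩ := hm
  have h1 := isIso_zsmul_pow h k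
  rw [hd, mul_smul] at h1
  exact (isIso_zsmul_of h1).1

theorem full_aux {A B P S' A' B' : M} (t : P ⟶ A) [IsIso (st.map t)] (g : st.obj A ⟶ st.obj B)
    (f : P ⟶ B) {c : ℤ} (hg : c • (st.map t ≫ g) = st.map f) {a : A ⊗ S' ⟶ A'} {b : B ⊗ S' ⟶ B'}
    (h : A' ⟶ B') (hh : st.map (f ▷ S' ≫ b) = st.map (t ▷ S' ≫ a ≫ h)) :
    (μ st A S' ≫ st.map a) ≫ st.map h = c • (g ▷ st.obj S' ≫ μ st B S' ≫ st.map b) := by
  rw [← cancel_epi (st.map t ▷ st.obj S'), Category.assoc, μ_natural_left_assoc, ← st.map_comp,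
    ← st.map_comp, ← hh, st.map_comp, ← μ_natural_left_assoc, ← hg, Preadditive.comp_zsmul,
    ← comp_whiskerRight_assoc, ← Preadditive.zsmul_comp ((st.map t ≫ g) ▷ _)]
  exact congrArg (· ≫ μ st B S' ≫ st.map b) (tensorRight (st.obj S')).map_zsmul

namespace PLoc

variable {D : StabObj (HM M)} {l : D.U.obj ⟶ 𝟙_ M} (H : PLoc st D l)
include H

theorem loc : Loc st where
  htpy := H.htpy
  zero := H.zero
  neg := H.sph.map_neg
  surj := H.surj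
  frac {A X} φ := by
    have := H.iso
    obtain ⟨k, f, hf⟩ := H.frac φ
    obtain ⟨U, w, e, t, h1, h2, h3⟩ := exists_tw (st := st) D H.lam k A
    exact ⟨U, w, e ≫ f, h3, by rw [← h2, st.map_comp, Category.assoc, hf t h1, st.map_comp]⟩
  eq {A X a b} h := by
    have := H.iso
    obtain ⟨k, hk⟩ := H.eq h
    obtain ⟨U, w, e, t, h1, h2, h3⟩ := exists_tw (st := st) D H.lam k A
    rw [← h1] at hk
    refine ⟨U, w, h3, ?_⟩
    rw [← h2, Category.assoc, Category.assoc]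
    exact ((HM.proj_map_eq_iff _ _).1 hk).comp_left e

variable {e : U M ⟶ D.U.obj} {c : ℤ} (hc : st.map (e ≫ l) = c • st.map (lamU M))
  (he : IsIso (st.map e))
include hc he

theorem isIso_c : IsIso (c • 𝟙 (𝟙_ C)) ∧ IsIso (st.map (lamU M)) := by
  have := H.iso
  have h1 : IsIso (c • (st.map (lamU M) ≫ η st)) := by
    rw [← Preadditive.zsmul_comp, ← hc, st.map_comp]
    infer_instance
  obtain ⟨h2, h3⟩ := isIso_zsmul_of h1
  exact ⟨h2, IsIso.of_isIso_comp_right _ (η st)⟩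

theorem isInv : IsInv (st.obj (S M)) :=
  have := (H.isIso_c hc he).2
  IsInv.of_inverse' (Functor.Monoidal.μIso st L (S M) ≪≫ asIso (st.map (lamU M)) ≪≫
    (Functor.Monoidal.εIso st).symm)

theorem full {X Y : LC} (g : st.obj ((J M).obj X) ⟶ st.obj ((J M).obj Y)) :
    ∃ (k : ℕ) (h : X ⊗ LC.Sph k ⟶ Y ⊗ LC.Sph k),
      (μ st ((J M).obj X) ((J M).obj (LC.Sph k)) ≫ st.map (μ (J M) X (LC.Sph k))) ≫
        st.map ((J M).map h) = c ^ k • (g ▷ st.obj ((J M).obj (LC.Sph k)) ≫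
        μ st ((J M).obj Y) ((J M).obj (LC.Sph k)) ≫ st.map (μ (J M) Y (LC.Sph k))) := by
  have h2 := (H.isIso_c hc he).2
  obtain ⟨k, f, hf⟩ := H.frac g
  obtain ⟨ε, t, t', k1, k2, k3, k4⟩ := exists_cmp (st := st) (stab M) D (l := lamU M) rfl H.lam e
    hc k ((J M).obj X)
  obtain ⟨h, hh⟩ := exists_space_map k (ε ≫ f) t k1
  have k5 : c ^ k • (st.map t ≫ g) = st.map (ε ≫ f) := by
    rw [← Preadditive.zsmul_comp, ← k3, st.map_comp, Category.assoc, hf t' k2, st.map_comp]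
  exact ⟨k, h, full_aux t g (ε ≫ f) k5 _ (H.htpy hh)⟩

/-- The model given by a localisation. -/
noncomputable def model (p : ℕ) (hp : ∀ m : ℕ, 0 < m → m < p → ∃ k : ℕ, (m : ℤ) ∣ c ^ k) :
    Model p C where
  toCMod := H.loc.cmod H.sph (H.isInv hc he)
  unit m h1 h2 := (hp m h1 h2).elim fun _ h => isIso_zsmul_dvd (H.isIso_c hc he).1 h
  full {X Y} g := by
    obtain ⟨k, h, hh⟩ := H.full hc he (X := X.obj) (Y := Y.obj) g
    have k6 : ∀ Z : FCat, μ (FCP.ι ⋙ J M ⋙ st) Z (SphF k) =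
        μ st ((J M).obj Z.obj) ((J M).obj (LC.Sph k)) ≫ st.map (μ (J M) Z.obj (LC.Sph k)) :=
      fun Z => (congrArg (_ ≫ ·) ((J M ⋙ st).map_id _)).trans (Category.comp_id _)
    refine ⟨k, FCat.hom h, c ^ k, isIso_zsmul_pow (H.isIso_c hc he).1 k, ?_⟩
    change μ (FCP.ι ⋙ J M ⋙ st) X (SphF k) ≫ _ = c ^ k • (_ ≫ μ (FCP.ι ⋙ J M ⋙ st) Y (SphF k))
    rw [k6, k6]
    exact hh

/-- **LINK.** A weak tower in the localisation gives Smith-Toda complexes in every stable homotopy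
category. -/
theorem hasV {p n : ℕ} (hp : p.Prime) (h2 : p ≠ 2)
    (hm : ∀ m : ℕ, 0 < m → m < p → ∃ k : ℕ, (m : ℤ) ∣ c ^ k) (E : Tests (st.obj (S M))) {O V : C}
    [IsInv O] (hO : E.Sm O) {i : O ⟶ V}
    (h : (H.loc.cmod H.sph (H.isInv hc he)).WTow H.loc.triStr E p O (n + 1) i) {T : St.SHCat}
    (σ : St.Susp T) : P257.St.HasV σ p n := by
  obtain ⟨V', i', -, k, -⟩ := CMod.WTow.exists_tow (K := H.loc.cmod H.sph (H.isInv hc he))
    (D := H.loc.triStr) (fun t => Exists.intro _ t) hO h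
  exact hasV_of_tow hp h2 (H.model hc he p hm) k σ

end PLoc

section cells

variable {Δ : Type} [AddCommGroup Δ] (c : Cells C Δ) {S₁ : C} {d₁ : Δ} (e : c.obj d₁ ≅ S₁) (d₀ : Δ)

instance (d : Δ) : IsInv (c.obj d) := IsInv.of_inverse (c.inv' d)

/-- the cells of degree `d₀ + k d₁` -/
def cellTests : Tests S₁ where
  P A := ∃ k : ℤ, A = c.obj (d₀ + k • d₁)
  up := fun ⟨k, h⟩ => ⟨_, ⟨k + 1, rfl⟩, ⟨eqToIso (by rw [add_smul, one_smul, add_assoc]) ≪≫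
    (c.add _ _).symm ≪≫ (eqToIso h.symm ⊗ᵢ e)⟩⟩
  dn := fun ⟨k, h⟩ => ⟨_, ⟨k - 1, rfl⟩, ⟨eqToIso (by
    rw [h, sub_smul, one_smul, add_assoc, sub_add_cancel]) ≪≫ (c.add _ d₁).symm ≪≫
      whiskerLeftIso _ e⟩⟩

theorem cellTests_sm : (cellTests c e d₀).Sm (c.obj d₀) :=
  .of_test ⟨0, by rw [zero_smul, add_zero]⟩

variable {c} {X Y : C} {φ : X ⟶ Y}

theorem cellTests_we (h : ∀ k : ℤ, Bij (c.obj (d₀ + k • d₁)) φ) : (cellTests c e d₀).WE φ :=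
  fun _ ⟨k, hk⟩ => hk ▸ h k

theorem cellTests_we_of_tEq (h : c.TEq φ) : (cellTests c e d₀).WE φ :=
  cellTests_we e d₀ fun _ => h.bijective _

end cells

/-- the three exactness statements of a triangle -/
theorem TriStr.ex₃ {S₁ A B Z : C} [IsInv S₁] {D : TriStr S₁} {f : A ⟶ B} {g : B ⟶ Z}
    {q : Z ⟶ A ⊗ S₁} (h : D.Tri f g q) : P257.C.Ex f g ∧ P257.C.Ex g q ∧ P257.C.Ex q (f ▷ S₁) := by
  have k : ∀ {A B Z : C} {f : A ⟶ B} {g : B ⟶ Z} {q : Z ⟶ A ⊗ S₁}, D.Tri f g q → P257.C.Ex f g :=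
    fun h Y _ y e => TriStr.co₂ (D.whiskerLeft Y h) y e
  refine ⟨k h, k (D.rot h), fun Y W y e => k (D.rot (D.rot h)) Y W y ?_⟩
  rw [show Y ◁ (-f ▷ S₁) = -Y ◁ f ▷ S₁ from (tensorLeft Y).map_neg, Preadditive.comp_neg, e,
    neg_zero]

end Vale.Agent.P257.L
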