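import Vale.Agent.P257.K.Add
import Vale.Agent.P257.L.LocModel

/-!
# P257, block LINK: the stable category `SC D` is a localisation

* `scPLoc D`, `scLoc D`, `scTri D` : the triangles of `SC D`;
* `scMod D` : `SC D` with its spaces and cones;
* `hasV_of_wTow_sc` : a weak tower in `SC` of the datum twisted by a map of degree `n₀` gives `HasV`.
-/

open CategoryTheory MonoidalCategory Limits Functor.LaxMonoidal Functor.OplaxMonoidal

universe v u

namespace Vale.Agent.P257.L

open Vale.Agent.P251 Vale.Agent.P251.G Vale.Agent.P251.H Vale.Agent.P251.H.StabInput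
  Vale.Agent.P251.I Vale.Agent.P251.M Vale.Agent.P257.C Vale.Agent.P257.K

variable {M : Type u} [Category.{v} M] [MonoidalCategory M] [SymmetricCategory M]
    [MonoidalClosed M] [HasZeroMorphisms M] [HasColimitsOfSize.{0, 0} M] [StabInput M]
    (D : Stab M)

theorem scPLoc : PLoc (st D) D.obj D.lam where
  lam := rfl
  iso := inferInstance
  htpy := SC.st_htpy
  zero := SC.st_zero
  sph := SC.sphFun D
  surj X := ⟨X.obj, ⟨Iso.refl _⟩⟩
  frac φ := by
    obtain ⟨k, f, rfl⟩ := CoPt.cl_surj φ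
    obtain ⟨g, rfl⟩ := HM.proj_map_surjective f
    exact ⟨k, g, fun t ht => (SC.st_comp _ _).trans
      ((congrArg (D.obj.coPt.comap · _ _) ht).trans (comap_tk_cl _ k _))⟩
  eq h := by
    obtain ⟨k, _, l⟩ := (CoPt.cl_eq_iff' (P := D.obj.coPt) (k := 0) _ _).1 h
    exact ⟨k, l⟩

theorem scLoc : Loc (st D) := (scPLoc D).loc

instance : IsInv (SC.SS D) := IsInv.of_inverse' (SC.lamIso D)

/-- the triangles of `SC D` -/
noncomputable def scTri : TriStr (SC.SS D) := (scLoc D).triStr

/-- `SC D` with its spaces and cones -/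
noncomputable def scMod : CMod (SC D) := (scLoc D).cmod (SC.sphFun D) inferInstance

section tri

variable {A B Z : M}

theorem scTri_cone {u : A ⟶ B} {k : A ⊗ CI M ⟶ Z} {i : B ⟶ Z} {r : Z ⟶ A ⊗ S M}
    (h : IsCone u k i r) : (scTri D).Tri ((st D).map u) ((st D).map i) ((st D).map r) := by
  have := (scLoc D).tri_cone h
  rwa [SC.st_δ, Category.comp_id] at this

theorem scTri_pushout {u : A ⟶ B} {k : A ⊗ CI M ⟶ Z} {i : B ⟶ Z}
    (h : IsPushout (coneBase A) u k i) : ∃ q, (scTri D).Tri ((st D).map u) ((st D).map i) q :=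
  (scLoc D).tri_pushout h

theorem scTri_hCof {O : M} {i : A ⟶ B} (hi : HCof i) (hO : IsZero O) {z : A ⟶ O} {c : B ⟶ Z}
    {z' : O ⟶ Z} (hQ : IsPushout i z c z') :
    ∃ q, (scTri D).Tri ((st D).map i) ((st D).map c) q :=
  (scLoc D).tri_hCof hi hO hQ

end tri

/-- the endomorphism of degree `n` of `U` -/
noncomputable abbrev degU (n : ℕ) : D.U ⟶ D.U := D.L ◁ (J M).map (LC.mfold n)

theorem st_degU (D' : Stab M) (n : ℕ) : (st D').map (degU D n) = (n : ℤ) • 𝟙 _ := by
  rw [SC.st_whiskerLeft, show (st D').map ((J M).map (LC.mfold n)) = (n : ℤ) • 𝟙 _ from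
    ((SC.sphFun D').map_mfold n).trans (natCast_zsmul _ _).symm, whiskerLeft_zsmul,
    MonoidalCategory.whiskerLeft_id]
  rfl

/-- `n` is invertible after twisting by a map of degree `n` -/
theorem isIso_twist (n : ℕ) : IsIso ((n : ℤ) • 𝟙 (𝟙_ (SC (D.twist (degU D n))))) := by
  have h : IsIso ((st (D.twist (degU D n))).map (degU D n ≫ D.lam)) :=
    (scPLoc (D.twist (degU D n))).iso
  rw [Functor.map_comp, st_degU, Preadditive.zsmul_comp, Category.id_comp] at h
  exact (isIso_zsmul_of h).1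

/-- **LINK.** A weak tower in `SC` of the twisted datum gives Smith-Toda complexes. -/
theorem hasV_of_wTow_sc {p n n₀ : ℕ} (hp : p.Prime) (h2 : p ≠ 2)
    (hm : ∀ m : ℕ, 0 < m → m < p → ∃ k : ℕ, m ∣ n₀ ^ k) {D : Stab M}
    (hD : D = (Stab.std M).twist (degU (Stab.std M) n₀)) (E : Tests (SC.SS D)) {O V : SC D}
    [IsInv O] (hO : E.Sm O) {i : O ⟶ V} (h : (scMod D).WTow (scTri D) E p O (n + 1) i)
    {T : St.SHCat} (σ : St.Susp T) : P257.St.HasV σ p n := by
  subst hD
  refine (scPLoc _).hasV (e := 𝟙 _) (c := n₀) ?_ ?_ hp h2 (fun m h1 h2 => ?_) E hO h σ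
  · refine (congrArg _ (Category.id_comp _)).trans (((st _).map_comp _ _).trans ?_)
    rw [st_degU, Preadditive.zsmul_comp, Category.id_comp]
  · exact ((st _).mapIso (Iso.refl _)).isIso_hom
  · exact (hm m h1 h2).imp fun k hk => by exact_mod_cast hk

end Vale.Agent.P257.L
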