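import Vale.Agent.P251.H.Five
import Vale.Agent.P251.H.Puppe2

/-!
# P257, block LINK: maps of mapping cones

* `exists_coneMap` : a homotopy commutative square induces a map of mapping cones;
* `isCone_whiskerLeft`, `isCone_J`, `isCone_zero` : examples of mapping cone sequences;
* `exists_rot` : the mapping cone of the inclusion of a mapping cone.
-/

open CategoryTheory MonoidalCategory Limits Functor.LaxMonoidal Functor.OplaxMonoidal

namespace Vale.Agent.P257.L

open Vale.Agent.P251.G Vale.Agent.P251.H Vale.Agent.P251.H.StabInput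

universe v u

variable {M : Type u} [Category.{v} M] [MonoidalCategory M] [SymmetricCategory M]
    [MonoidalClosed M] [HasZeroMorphisms M] [HasColimitsOfSize.{0, 0} M] [StabInput M]
    {A B Z A' B' Z' : M} {u : A ⟶ B} {k : A ⊗ CI M ⟶ Z} {i : B ⟶ Z} {q : Z ⟶ A ⊗ S M}
    {u' : A' ⟶ B'} {k' : A' ⊗ CI M ⟶ Z'} {i' : B' ⟶ Z'} {q' : Z' ⟶ A' ⊗ S M}

/-- A homotopy commutative square induces a map of mapping cones. -/
theorem exists_coneMap (h : IsCone u k i q) (h' : IsCone u' k' i' q') (a : A ⟶ A') (b : B ⟶ B')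
    (w : MHtpy (a ≫ u') (u ≫ b)) :
    ∃ c : Z ⟶ Z', i ≫ c = b ≫ i' ∧ MHtpy (q ≫ a ▷ S M) (c ≫ q') := by
  obtain ⟨H, h0, h1⟩ := w
  obtain ⟨K, k0, k1⟩ := hCof_coneBase A Z' (a ▷ CI M ≫ k') (H ≫ i') (by
    rw [reassoc_of% h0, coneBase_naturality_assoc, h'.po.w])
  have e1 : coneBase A ≫ inc 1 _ ≫ K = u ≫ b ≫ i' := by
    rw [← inc_naturality_assoc, k1, reassoc_of% h1]
  have hP := StabInput.isPushout_whiskerRight (I M) h.po
  have e2 : coneBase A ▷ I M ≫ K ≫ q' = u ▷ I M ≫ 0 := by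
    rw [reassoc_of% k1, h'.iq, comp_zero, comp_zero]
  refine ⟨h.po.desc _ _ e1, h.po.inr_desc _ _ _, hP.desc _ _ e2, ?_, ?_⟩
  · apply h.po.hom_ext
    · rw [← inc_naturality_assoc, hP.inl_desc, reassoc_of% k0, h'.kq, reassoc_of% h.kq,
        whisker_exchange]
    · rw [← inc_naturality_assoc, hP.inr_desc, comp_zero, reassoc_of% h.iq, zero_comp]
  · apply h.po.hom_ext
    · rw [← inc_naturality_assoc, hP.inl_desc, h.po.inl_desc_assoc, Category.assoc]
    · rw [← inc_naturality_assoc, hP.inr_desc, comp_zero, h.po.inr_desc_assoc, Category.assoc,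
        h'.iq, comp_zero]

theorem isCone_whiskerLeft (h : IsCone u k i q) (U : M) :
    IsCone (U ◁ u) ((α_ _ _ _).hom ≫ U ◁ k) (U ◁ i) (U ◁ q ≫ (α_ _ _ _).inv) where
  po := (StabInput.isPushout_whiskerLeft U h.po).of_iso (Iso.refl _) (α_ _ _ _).symm (Iso.refl _)
    (Iso.refl _) (by simp [coneBase_def]) (by simp) (by simp) (by simp)
  kq := by
    rw [Category.assoc, ← MonoidalCategory.whiskerLeft_comp_assoc, h.kq]
    simp
  iq := by
    rw [← MonoidalCategory.whiskerLeft_comp_assoc, h.iq, whiskerLeft_zero', zero_comp]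

theorem isCone_J {X Y : LC} (f : X ⟶ Y) :
    IsCone ((J M).map f) (μ (J M) X LC.HH ≫ (J M).map (LC.coneInl f)) ((J M).map (LC.coneInr f))
      ((J M).map (LC.coneConn f) ≫ δ (J M) X LC.RR) where
  po := (pushout _ _ _ _ (LC.injective_coneBase X) (LC.isPushout_cone f)).of_iso (Iso.refl _)
    (Functor.Monoidal.μIso (J M) X LC.HH).symm (Iso.refl _) (Iso.refl _) (by
      rw [Iso.symm_hom, Iso.comp_inv_eq, Iso.refl_hom, Category.id_comp,
        Functor.Monoidal.μIso_hom, coneBase_def, Category.assoc,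
        MonoidalCategory.whiskerLeft_comp, Category.assoc, μ_natural_right,
        right_unitality_inv_assoc, ← Functor.map_comp]
      rfl) (by simp) (by simp) (by simp)
  kq := by
    rw [Category.assoc, ← Functor.map_comp_assoc, LC.coneInl_conn, ← μ_natural_right_assoc,
      Functor.Monoidal.μ_δ, Category.comp_id]
  iq := by rw [← Functor.map_comp_assoc, LC.coneInr_conn, J_map_zero, zero_comp]

theorem isCone_zero {O : M} (hO : IsZero O) (Y : M) :
    IsCone (0 : O ⟶ Y) 0 (𝟙 Y) 0 where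
  po := by
    have : IsIso (coneBase O) := hO.isIso (isZero_tensor_right hO _) _
    exact IsPushout.of_horiz_isIso ⟨hO.eq_of_src _ _⟩
  kq := (isZero_tensor_right hO _).eq_of_src _ _
  iq := comp_zero

/-- The mapping cone of the inclusion of a mapping cone. -/
theorem exists_rot (h : IsCone u k i q) :
    ∃ (D : M) (l : B ⊗ CI M ⟶ D) (j : Z ⟶ D) (r : D ⟶ B ⊗ S M) (e : D ⟶ A ⊗ S M)
      (g : A ⊗ S M ⟶ D), IsCone i l j r ∧ j ≫ e = q ∧ MHtpy (e ≫ g) (𝟙 _) ∧
      MHtpy (g ≫ e) (𝟙 _) ∧ MHtpy r ((e ≫ u ▷ S M) ≫ B ◁ (J M).map LC.neg) := by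
  obtain ⟨D, l, j, r, hD⟩ := IsCone.exists_isCone (f := i)
  have hO := isZero_empty (M := M)
  have hQ := isPushout_collapse h.po h.kq h.iq hO 0 0
  have w : coneBase B ≫ 0 = i ≫ q := by rw [comp_zero, h.iq]
  obtain ⟨g, g1, g2⟩ := (hCof_cone h.po).exists_cone_inverse hD.po hO hQ (hD.po.desc _ _ w)
    (hD.po.inl_desc _ _ _) (hD.po.inr_desc _ _ _)
  exact ⟨D, l, j, r, _, g, hD, hD.po.inr_desc _ _ _, g1, g2,
    collapse_htpy h.po hD.po h.kq h.iq (hD.po.inl_desc _ _ _) (hD.po.inr_desc _ _ _) hD.kq hD.iq⟩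

end Vale.Agent.P257.L
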