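import Vale.Agent.P257.H420.CmpI
import Vale.Agent.P257.H314.Desc
import Vale.Agent.P257.H763.WtZero

/-!
# P257, block LINK: the Hurewicz image in degree `|v_h|`

* `vanInf_zero` : `H^0 (Cob (Laz / I_∞))_w = 0` for `w ≠ 0`;
* `exists_int_of_inv` : an invariant element of weight `p^h - 1` of `Laz / I_h` is an integer
  multiple of `v_h`;
* `Cyc.exists_det_int` : a class `x ∈ π_{2(p^h-1)} V` is detected by an integer multiple of `v_h`;
* `Cyc.exists_det_of_ne` : if its Hurewicz image is not zero, a multiple `c x`, `0 < c < p`, is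
  detected by `v_h`;
* `IsST.next'` : the cofibre of a self map which extends such a class.
-/

open CategoryTheory MonoidalCategory Limits Pretriangulated MonObj

universe v u

set_option linter.unusedSectionVars false

namespace Vale.Agent.P257.L

open Vale.Agent.P251 Vale.Agent.P251.T Vale.Agent.P251.M Vale.Agent.P251.F
open Vale.Agent.P251.M.EvenSpheres Vale.Agent.P257.H314
open Vale.Agent.P251.S hiding IC

variable {p : ℕ} [hp : Fact p.Prime]

theorem vanInf_zero {w : ℤ} (hw : w ≠ 0) : VanInf p 0 w := by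
  rw [H420.vanInf_iff_P_zero]
  intro y hy _
  ext e
  by_contra he
  have h1 := hy he
  have h2 : e = 0 := Subsingleton.elim _ _
  rw [h2, map_zero] at h1
  exact hw h1.symm

theorem one_le_pow_sub {h : ℕ} (hh : 1 ≤ h) : (1 : ℤ) ≤ (p : ℤ) ^ h - 1 := by
  have h0 : (1 : ℤ) < (p : ℤ) := by exact_mod_cast hp.out.one_lt
  have h1 : (p : ℤ) ^ 1 ≤ (p : ℤ) ^ h := pow_le_pow_right₀ h0.le hh
  rw [pow_one] at h1
  omega

/-- The invariant elements of weight `p ^ h - 1`. -/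
theorem exists_int_of_inv {h : ℕ} (hh : 1 ≤ h) (z : Cob.wt Laz 0 ((p ^ h : ℤ) - 1))
    (hz : Cob.d 0 z.1 ∈ IC p h 1) : ∃ c : ℤ, (z - c • vw p h 0).1 ∈ IC p h 0 := by
  have h0 : (1 : ℤ) < (p : ℤ) := by exact_mod_cast hp.out.one_lt
  have h1 := one_le_pow_sub (p := p) hh
  have h2 : (p : ℤ) ^ h - 1 < (p : ℤ) ^ (h + 1) - 1 := by
    have : (p : ℤ) ^ h < (p : ℤ) ^ (h + 1) := pow_lt_pow_right₀ h0 (Nat.lt_succ_self h)
    omega
  have h3 : AlgVan p (h + 1) 0 ((p ^ h : ℤ) - 1) :=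
    (algVan_iff_vanInf h2).2 (vanInf_zero (by omega))
  obtain ⟨b, hb, hzb⟩ := exists_of_mem_succ z.2 (h3 z.1 z.2 (IC_mono hz))
  rw [sub_self] at hb
  obtain ⟨c, rfl⟩ := H763.exists_int_of_isWt_zero hb
  refine ⟨c, ?_⟩
  rw [← zsmul_eq_mul] at hzb
  exact hzb

theorem p_mem_IC {h : ℕ} (hh : 1 ≤ h) (s : ℕ) : (p : Cob Laz s) ∈ IC p h s := by
  have h1 : (p : Laz) ∈ Laz.I p h := by
    rw [Laz.I, Ih]
    exact Ideal.subset_span ⟨0, hh, vv_zero p _⟩
  have h2 := Ideal.mem_map_of_mem (MvPolynomial.C : Laz →+* Cob Laz s) h1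
  rwa [map_natCast] at h2

variable {T : Type u} [Category.{v} T] [Preadditive T] [HasZeroObject T]
    [HasShift T ℤ] [∀ n : ℤ, (shiftFunctor T n).Additive] [Pretriangulated T]
    [MonoidalCategory T] [SymmetricCategory T] [TensorTriangulated T] [HasCoproducts.{0} T]
    {D : I.MUData T} {h : ℕ} {V : T} {i : 𝟙_ T ⟶ V}

omit hp in
theorem det_zsmul {N : ℤ} {x : (stdEven T).S N ⟶ V} {z : Cob.wt Laz 0 N} (hx : Det D i x z)
    (c : ℤ) : Det D i (c • x) (c • z) := by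
  rw [Det, Preadditive.zsmul_comp, hx, map_zsmul, Preadditive.zsmul_comp]

omit hp in
theorem det_congr (H : Cyc D p h i) {N : ℤ} {x : (stdEven T).S N ⟶ V} {z z' : Cob.wt Laz 0 N}
    (hx : Det D i x z) (hz : (z - z').1 ∈ IC p h 0) : Det D i x z' := by
  rw [← H.ker 0 N, map_sub, Preadditive.sub_comp, sub_eq_zero] at hz
  rw [Det, ← hz]
  exact hx

/-- The Hurewicz image is invariant. -/
theorem d_mem_of_det (H : Cyc D p h i) {N : ℤ} {x : (stdEven T).S N ⟶ V} {z : Cob.wt Laz 0 N}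
    (hx : Det D i x z) : Cob.d 0 z.1 ∈ IC p h 1 := by
  let a : Cob.wt Laz 1 N := ⟨Cob.map (Fin.succAbove (0 : Fin 2)) z.1, z.2.map _⟩
  let b : Cob.wt Laz 1 N := ⟨Cob.map (Fin.succAbove (1 : Fin 2)) z.1, z.2.map _⟩
  have h0 : x ≫ unitMap (Am D.R (1 + 1)) V = D.evw 1 N a ≫ (redC i).app (Am D.R (1 + 1)) :=
    hx.map 1 (Fin.succAbove (0 : Fin 2))
  have h1 : x ≫ unitMap (Am D.R (1 + 1)) V = D.evw 1 N b ≫ (redC i).app (Am D.R (1 + 1)) :=
    hx.map 1 (Fin.succAbove (1 : Fin 2))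
  have h2 : D.evw 1 N (a - b) ≫ (redC i).app (Am D.R (1 + 1)) = 0 := by
    rw [map_sub, Preadditive.sub_comp, ← h0, ← h1, sub_self]
  have h3 : (a - b).1 ∈ IC p h 1 := (H.ker 1 N (a - b)).1 h2
  have h4 : Cob.d 0 z.1 = (a - b).1 := by
    rw [Cob.d_apply, Fin.sum_univ_two, AddSubgroup.coe_sub]
    simp only [a, b, Fin.val_zero, pow_zero, one_smul, Fin.val_one, pow_one, neg_smul,
      sub_eq_add_neg]
  rw [h4]
  exact h3

theorem exists_det_int (H : Cyc D p h i) (hh : 1 ≤ h)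
    (x : (stdEven T).S ((p ^ h : ℤ) - 1) ⟶ V) : ∃ c : ℤ, Det D i x (c • vw p h 0) := by
  obtain ⟨z, hz⟩ := H.surj 0 _ (x ≫ unitMap (Am D.R 1) V)
  obtain ⟨c, hc⟩ := exists_int_of_inv hh z (d_mem_of_det H hz)
  exact ⟨c, det_congr H hz hc⟩

/-- A class with non-trivial Hurewicz image has a multiple which is detected by `v_h`. -/
theorem exists_det_of_ne (H : Cyc D p h i) (hh : 1 ≤ h)
    (x : (stdEven T).S ((p ^ h : ℤ) - 1) ⟶ V) (hx : x ≫ unitMap (Am D.R 1) V ≠ 0) :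
    ∃ c : ℕ, 0 < c ∧ c < p ∧ Det D i ((c : ℤ) • x) (vw p h 0) := by
  obtain ⟨m, hm⟩ := exists_det_int H hh x
  have key : ∀ k : ℤ, (p : ℤ) ∣ k → (k • vw p h 0).1 ∈ IC p h 0 := by
    rintro _ ⟨k, rfl⟩
    have e : (((p : ℤ) * k) • vw p h 0).1 = (p : Cob Laz 0) * (k • (vw p h 0).1) := by
      rw [AddSubgroup.coe_zsmul, mul_smul, zsmul_eq_mul]
      push_cast
      rfl
    rw [e]
    exact Ideal.mul_mem_right _ _ (p_mem_IC hh 0)
  have hm0 : (m : ZMod p) ≠ 0 := by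
    intro h0
    apply hx
    rw [hm, H.ker]
    exact key m ((ZMod.intCast_zmod_eq_zero_iff_dvd m p).1 h0)
  refine ⟨((m : ZMod p)⁻¹).val, ?_, ZMod.val_lt _, det_congr H (det_zsmul hm _) ?_⟩
  · rw [Nat.pos_iff_ne_zero, Ne, ZMod.val_eq_zero]
    exact inv_ne_zero hm0
  · rw [smul_smul]
    have e : ((((m : ZMod p)⁻¹).val : ℤ) * m) • vw p h 0 - vw p h 0 =
        ((((m : ZMod p)⁻¹).val : ℤ) * m - 1) • vw p h 0 := by
      rw [sub_smul, one_smul]
    rw [e]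
    apply key
    rw [← ZMod.intCast_zmod_eq_zero_iff_dvd]
    push_cast
    rw [ZMod.natCast_val, ZMod.cast_id, inv_mul_cancel₀ hm0, sub_self]

variable [MonoidalClosed T] [IsTriangulated T] [HasProducts.{0} T] [StableCat T]

/-- The cofibre of a self map which extends a class detected by `v_h`. -/
theorem isST_next {C : T} {iC : 𝟙_ T ⟶ C} (H : IsST D p iC h i)
    {x : (stdEven T).S ((p ^ h : ℤ) - 1) ⟶ V} (hx : Det D i x (vw p h 0))
    {f : (stdEven T).S ((p ^ h : ℤ) - 1) ⊗ V ⟶ V}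
    (hf : ((stdEven T).S ((p ^ h : ℤ) - 1) ◁ i) ≫ f = (ρ_ _).hom ≫ x) {V' : T} {j : V ⟶ V'}
    {δ : V' ⟶ ((stdEven T).S ((p ^ h : ℤ) - 1) ⊗ V)⟦(1 : ℤ)⟧}
    (hΔ : Triangle.mk f j δ ∈ distTriang T) : IsST D p iC (h + 1) (i ≫ j) := by
  obtain ⟨W, π, δW, hW, hWf⟩ := H.bar
  obtain ⟨W', π', δW', hW'⟩ := distinguished_cocone_triangle (i ≫ j)
  obtain ⟨g, hg⟩ := H.fact
  have hS : FinCell T {2 * ((p ^ h : ℤ) - 1)} ((stdEven T).S ((p ^ h : ℤ) - 1)) :=
    FinCell.of_iso (sI T _).symm (FinCell.sphere _ rfl)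
  have hSV : FinCell T {d | ∃ e ∈ dims p h, d = 2 * ((p ^ h : ℤ) - 1) + e}
      ((stdEven T).S ((p ^ h : ℤ) - 1) ⊗ V) := hS.tensor H.fin (by
    rintro _ rfl e he
    exact ⟨e, he, rfl⟩)
  have hSV1 : FinCell T (dimsPos p (h + 1)) (((stdEven T).S ((p ^ h : ℤ) - 1) ⊗ V)⟦(1 : ℤ)⟧) :=
    hSV.shift 1 (by
      rintro _ ⟨e, he, rfl⟩
      have := dims_succ he
      convert this using 1
      ring)
  refine ⟨H.cyc.step rfl hx hf hΔ, ?_, ?_, ⟨g ≫ j, by rw [← Category.assoc, hg]⟩,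
    STow.succ H.tow x hx _ hf j δ hΔ⟩
  · exact FinCell.ext _ (rot_of_distTriang _ hΔ) (H.fin.mono (dims_mono p h))
      (hSV1.mono (dimsPos_subset p (h + 1)))
  · refine ⟨W', π', δW', hW', ?_⟩
    have O := (Triangulated.someOctahedron rfl hW (rot_of_distTriang _ hΔ) hW').mem
    exact FinCell.ext _ O (hWf.mono (dimsPos_mono p h)) hSV1

end Vale.Agent.P257.L
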