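import Vale.Agent.P257.L.MTow

/-!
# P257, block DET-T: cones of multiplications by detected classes
-/

open CategoryTheory MonoidalCategory Limits MonObj

universe v u w

set_option linter.unusedSectionVars false

namespace Vale.Agent.P257.L

open Vale.Agent.P251 Vale.Agent.P251.M Vale.Agent.P257.C

variable {C : Type u} [Category.{v} C] [MonoidalCategory C] [SymmetricCategory C]
  {B P O O' X R V V' S : C}

/-- moving a factor to the left -/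
def sw (B P O : C) : B ⊗ (P ⊗ O) ≅ P ⊗ (B ⊗ O) :=
  (α_ B P O).symm ≪≫ whiskerRightIso (β_ B P) O ≪≫ α_ P B O

@[reassoc]
theorem sw_nat (B : C) (x : P ⟶ R) (j : O ⟶ O') :
    B ◁ (x ⊗ₘ j) ≫ (sw B R O').hom = (sw B P O).hom ≫ (x ⊗ₘ B ◁ j) := by
  simp only [sw, Iso.trans_hom, Iso.symm_hom, whiskerRightIso_hom, Category.assoc]
  rw [← id_tensorHom, associator_inv_naturality_assoc, id_tensorHom,
    tensorHom_comp_whiskerRight_assoc, BraidedCategory.braiding_naturality_right,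
    ← whiskerRight_comp_tensorHom, Category.assoc, ← tensorHom_id x, associator_naturality,
    id_tensorHom]

@[reassoc]
theorem sw_unit (B O : C) : B ◁ (λ_ O).inv ≫ (sw B (𝟙_ C) O).hom = (λ_ _).inv := by
  simp [sw]

theorem det_mul {u : 𝟙_ C ⟶ R} {v : X ⟶ V} {e : X ⟶ P ⊗ O} {x : P ⟶ R} {j : O ⟶ V}
    (h : (λ_ _).inv ≫ (u ⊗ₘ v) = e ≫ (x ⊗ₘ j)) (m : B ⊗ V ⟶ V') :
    (λ_ _).inv ≫ (u ⊗ₘ (B ◁ v ≫ m)) =
      (B ◁ e ≫ (sw B P O).hom ≫ P ◁ (B ◁ j ≫ m)) ≫ x ▷ V' := by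
  have := congrArg (fun f => B ◁ f ≫ (sw B R V).hom ≫ R ◁ m) h
  simp only [MonoidalCategory.whiskerLeft_comp, Category.assoc] at this
  rw [sw_nat_assoc, sw_nat_assoc, sw_unit_assoc, tensorHom_comp_whiskerLeft,
    tensorHom_comp_whiskerLeft] at this
  rw [this, Category.assoc, Category.assoc, ← MonoidalCategory.tensorHom_def']

variable [IsInv S] {E : Tests S}

theorem Tests.WE₂.sph {φ : V ⟶ V'} (h : E.WE₂ R φ) {n : ℕ} (e : P ≅ Pw S n) :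
    E.WE₂ R (P ◁ φ) :=
  ⟨h.1.sph e, (h.2.sph e).of_arrow (sw P R V) (sw P R V') (by
    simpa only [id_tensorHom] using sw_nat P (𝟙 R) φ)⟩

theorem Tests.WE₂.of_comp_right {φ : X ⟶ V} {ψ : V ⟶ V'} (h : E.WE₂ R ψ)
    (k : E.WE₂ R (φ ≫ ψ)) : E.WE₂ R φ :=
  ⟨h.1.of_comp_right k.1, h.2.of_comp_right (MonoidalCategory.whiskerLeft_comp R φ ψ ▸ k.2)⟩

variable [Preadditive C] [MonoidalPreadditive C] {c : Cells C ℤ} [MonObj R] {p : ℕ} {A₀ : Type w}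
  [CommRing A₀] {G : RegSeq p A₀} {Q : Coef c R G} {D : TriStr S} (hO : E.Sm O) {i : O ⟶ V}
  {m : B ⊗ V ⟶ V} {v : X ⟶ V} {j : O' ⟶ V} (hj : E.WE₂ R (B ◁ j ≫ m)) {g : V ⟶ V'}
  {q : V' ⟶ (B ⊗ X) ⊗ S} (hc : D.Tri (B ◁ v ≫ m) g q)
include hO hj hc

/-- the first cone -/
theorem MTow.first (hi : E.WE₂ R i) (e : X ≅ O') (hv : v = (p : ℤ) • (e.hom ≫ j)) :
    MTow Q D E O 1 (i ≫ g) := by
  have hs := (Tests.WE₂.of_isIso (B ◁ e.hom)).comp hj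
  obtain ⟨y, hy⟩ := (hO _ hs.1).surj i
  refine .one hi y (hs.of_comp_right (hy ▸ hi)) ?_ hc
  rw [hv, whiskerLeft_zsmul, Preadditive.zsmul_comp, Preadditive.comp_zsmul, ← hy,
    MonoidalCategory.whiskerLeft_comp, Category.assoc]

/-- the further cones -/
theorem MTow.step (e₁ : c.obj 1 ≅ S) (hp : p.Prime) {h : ℕ} (H : MTow Q D E O h i)
    (a : P ≅ c.obj (2 * ((p : ℤ) ^ h - 1))) (e : X ≅ P ⊗ O') {x : P ⟶ R} (hx : Q.IsV h x)
    (hv : (λ_ _).inv ≫ (η[R] ⊗ₘ v) = e.hom ≫ (x ⊗ₘ j)) : MTow Q D E O (h + 1) (i ≫ g) := by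
  have b : P ≅ Pw S (2 * (p ^ h - 1)) := a ≪≫ eqToIso (congrArg c.obj (by
    push_cast [Nat.one_le_pow h p hp.pos]
    rfl)) ≪≫ cellPw c e₁ _
  have hs := (Tests.WE₂.of_isIso (B ◁ e.hom)).comp
    ((Tests.WE₂.of_isIso (sw B P O').hom).comp (hj.sph b))
  obtain ⟨y, hy⟩ := (hO.sph b _ hs.1).surj (P ◁ i)
  refine H.succ a _ hs y hy _ x hx ?_ hc
  rw [← whiskerLeft_comp_tensorHom, ← leftUnitor_inv_naturality_assoc, det_mul hv,
    ← Category.assoc, hy, MonoidalCategory.tensorHom_def']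

end Vale.Agent.P257.L
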