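import Vale.Agent.P257.L.Coef
import Vale.Agent.P257.L.WTow

/-!
# P257, block DET-T: towers with detection

* `Cy Q h i` : the `R`-homology of `V` is cyclic on `i : O ⟶ V` with annihilator `I h`;
* `MTow` : towers up to weak equivalences whose attaching maps are detected by `v h`;
* `MTow.cy`, `MTow.wTow` : such a tower is cyclic, and it is a `WTow`.
-/

open CategoryTheory MonoidalCategory Limits MonObj

universe v u w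

set_option linter.unusedSectionVars false

namespace Vale.Agent.P257.L

open Vale.Agent.P251 Vale.Agent.P251.G Vale.Agent.P251.I Vale.Agent.P251.M Vale.Agent.P257.C

section mon

variable {C : Type u} [Category.{v} C] [MonoidalCategory C] [SymmetricCategory C]
  {T O R V P A X S : C}

/-- inserting a factor `P` -/
def mid (P : C) (g : T ⊗ O ⟶ R ⊗ V) : (T ⊗ P) ⊗ O ⟶ R ⊗ (P ⊗ V) :=
  (α_ _ _ _).hom ≫ T ◁ (β_ P O).hom ≫ (α_ _ _ _).inv ≫ g ▷ P ≫ (α_ _ _ _).hom ≫ R ◁ (β_ V P).hom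

theorem mid_surj [IsInv P] (g : (T ⊗ P) ⊗ O ⟶ R ⊗ (P ⊗ V)) : ∃ g', mid P g' = g := by
  obtain ⟨g', h⟩ := whiskerRight_surj P ((α_ _ _ _).hom ≫ T ◁ (β_ P O).inv ≫ (α_ _ _ _).inv ≫ g ≫
    R ◁ (β_ V P).inv ≫ (α_ _ _ _).inv)
  exact ⟨g', by simp [mid, h]⟩

theorem mid_tensor (z : T ⟶ R) (i : O ⟶ V) :
    mid P (z ⊗ₘ i) = (α_ _ _ _).hom ≫ (z ⊗ₘ P ◁ i) := by
  rw [mid, ← tensorHom_id (z ⊗ₘ i), associator_naturality_assoc, Iso.inv_hom_id_assoc,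
    whiskerLeft_comp_tensorHom_assoc, tensorHom_comp_whiskerLeft, tensorHom_id, Category.assoc,
    BraidedCategory.braiding_naturality_left, SymmetricCategory.symmetry_assoc]

theorem tensor_det [MonObj R] (z : T ⟶ R) (x : P ⟶ R) (i : O ⟶ V) (y : P ⊗ O ⟶ V)
    (h : (λ_ _).inv ≫ (η[R] ⊗ₘ y) = x ⊗ₘ i) :
    (α_ _ _ _).hom ≫ (z ⊗ₘ y) = ((z ⊗ₘ x) ≫ μ[R]) ⊗ₘ i := by
  have h1 : R ◁ (λ_ V).inv ≫ R ◁ η[R] ▷ V ≫ (α_ _ _ _).inv ≫ μ[R] ▷ V = 𝟙 _ := by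
    rw [associator_inv_naturality_middle_assoc, ← comp_whiskerRight, mul_one]
    simp
  have h2 : y ≫ (λ_ V).inv ≫ η[R] ▷ V = x ⊗ₘ i := by
    rw [← h, tensorHom_def', leftUnitor_inv_naturality_assoc]
  rw [← Category.comp_id (z ⊗ₘ y), ← h1, ← MonoidalCategory.whiskerLeft_comp_assoc,
    tensorHom_comp_whiskerLeft_assoc, h2, associator_inv_naturality_assoc, Iso.hom_inv_id_assoc,
    tensorHom_comp_whiskerRight]

/-- desuspension of a map -/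
theorem exists_desusp [IsInv S] {T' : C} (e : T ≅ T' ⊗ S) (g : T ⊗ O ⟶ X ⊗ S) :
    ∃ (ε : T ⊗ O ≅ (T' ⊗ O) ⊗ S) (g' : T' ⊗ O ⟶ X), g = ε.hom ≫ g' ▷ S := by
  let ε : T ⊗ O ≅ (T' ⊗ O) ⊗ S :=
    whiskerRightIso e O ≪≫ α_ _ _ _ ≪≫ whiskerLeftIso T' (β_ S O) ≪≫ (α_ _ _ _).symm
  obtain ⟨g', h⟩ := whiskerRight_surj S (ε.inv ≫ g)
  exact ⟨ε, g', by rw [h, Iso.hom_inv_id_assoc]⟩

variable (c : Cells C ℤ) (e₁ : c.obj 1 ≅ S)

instance (d : ℤ) : IsInv (c.obj d) := IsInv.of_inverse (c.inv' d)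

/-- suspension of a cell -/
def cellSucc {k l : ℤ} (h : k + 1 = l) : c.obj l ≅ c.obj k ⊗ S :=
  eqToIso (by rw [h]) ≪≫ (c.add k 1).symm ≪≫ whiskerLeftIso _ e₁

/-- the cells of non-negative degree -/
def cellPw : ∀ n : ℕ, c.obj n ≅ Pw S n
  | 0 => c.zero.symm
  | n + 1 => cellSucc c e₁ (Nat.cast_succ n).symm ≪≫ β_ _ _ ≪≫ whiskerLeftIso S (cellPw n)

variable {E : Tests S} [IsInv S]

theorem Tests.Sm.desusp (h : E.Sm (A ⊗ S)) : E.Sm A := fun _ _ _ k =>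
  (bij_whiskerRight_iff S).1 (h _ k.susp)

include e₁ in
theorem Tests.Sm.cell (h : E.Sm O) (k : ℤ) : E.Sm (c.obj k ⊗ O) := by
  have e : ∀ {k l : ℤ}, k + 1 = l → (c.obj l ⊗ O ≅ (c.obj k ⊗ O) ⊗ S) := fun h =>
    whiskerRightIso (cellSucc c e₁ h) O ≪≫ α_ _ _ _ ≪≫ whiskerLeftIso _ (β_ S O) ≪≫
      (α_ _ _ _).symm
  induction k using Int.induction_on with
  | zero => exact h.of_iso (whiskerRightIso c.zero.symm O ≪≫ λ_ O)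
  | succ n ih => exact ih.susp.of_iso (e rfl)
  | pred n ih => exact (ih.of_iso (e (sub_add_cancel _ _)).symm).desusp

end mon

variable {C : Type u} [Category.{v} C] [Preadditive C] [MonoidalCategory C] [SymmetricCategory C]
  [MonoidalPreadditive C] {c : Cells C ℤ} {R : C} [MonObj R] {p : ℕ} {A₀ : Type w} [CommRing A₀]
  {G : RegSeq p A₀} (Q : Coef c R G) {O V V' A P : C}

theorem zero_tensor {X Y Z W : C} (f : Z ⟶ W) : (0 : X ⟶ Y) ⊗ₘ f = 0 := by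
  rw [MonoidalCategory.tensorHom_def, MonoidalPreadditive.zero_whiskerRight, zero_comp]

theorem sub_tensor {X Y Z W : C} (a b : X ⟶ Y) (f : Z ⟶ W) : (a - b) ⊗ₘ f = a ⊗ₘ f - b ⊗ₘ f := by
  simp only [MonoidalCategory.tensorHom_def]
  rw [← Preadditive.sub_comp]
  exact congrArg (· ≫ _) (tensorRight Z).map_sub

theorem zsmul_tensor {X Y Z W : C} (n : ℤ) (a : X ⟶ Y) (f : Z ⟶ W) :
    (n • a) ⊗ₘ f = n • (a ⊗ₘ f) := by
  simp only [MonoidalCategory.tensorHom_def]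
  rw [← Preadditive.zsmul_comp]
  exact congrArg (· ≫ _) (tensorRight Z).map_zsmul

theorem tensor_zsmul {X Y Z W : C} (n : ℤ) (a : X ⟶ Y) (f : Z ⟶ W) :
    a ⊗ₘ (n • f) = n • (a ⊗ₘ f) := by
  simp only [MonoidalCategory.tensorHom_def]
  rw [← Preadditive.comp_zsmul]
  exact congrArg (_ ≫ ·) (tensorLeft Y).map_zsmul

/-- `V` has cyclic `R`-homology with annihilator `I h` -/
structure Cy (h : ℕ) (i : O ⟶ V) : Prop where
  surj (n : ℤ) (g : c.obj (2 * n) ⊗ O ⟶ R ⊗ V) : ∃ y : c.obj (2 * n) ⟶ R, g = y ⊗ₘ i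
  ker (n : ℤ) (y : c.obj (2 * n) ⟶ R) : y ⊗ₘ i = 0 ↔ Q.Mem h n y
  odd (n : ℤ) (g : c.obj (2 * n + 1) ⊗ O ⟶ R ⊗ V) : g = 0

variable {Q} {S : C} [IsInv S] {D : TriStr S} {E : Tests S} (e₁ : c.obj 1 ≅ S) (hO : E.Sm O)
  {h : ℕ} {i : O ⟶ V}
include e₁ hO

theorem Cy.comp_iff {φ : V ⟶ V'} (hφ : E.WE (R ◁ φ)) : Cy Q h (i ≫ φ) ↔ Cy Q h i := by
  have b := fun k => hO.cell c e₁ k _ hφ
  refine ⟨fun H => ⟨fun n g => ?_, fun n y => ?_, fun n g => (b _).inj ?_⟩,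
    fun H => ⟨fun n g => ?_, fun n y => ?_, fun n g => ?_⟩⟩
  · obtain ⟨y, hy⟩ := H.surj n (g ≫ R ◁ φ)
    exact ⟨y, (b _).inj (by rw [hy, tensorHom_comp_whiskerLeft])⟩
  · rw [← H.ker, ← tensorHom_comp_whiskerLeft]
    exact ⟨fun k => by rw [k, zero_comp], fun k => (b _).inj (k.trans zero_comp.symm)⟩
  · rw [H.odd n (g ≫ _), zero_comp]
  · obtain ⟨g, rfl⟩ := (b _).surj g
    obtain ⟨y, rfl⟩ := H.surj n g
    exact ⟨y, tensorHom_comp_whiskerLeft _ _ _⟩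
  · rw [← H.ker, ← tensorHom_comp_whiskerLeft]
    exact ⟨fun k => (b _).inj (k.trans zero_comp.symm), fun k => by rw [k, zero_comp]⟩
  · obtain ⟨g, rfl⟩ := (b _).surj g
    rw [H.odd n g, zero_comp]

theorem bij_tensor [IsInv O] (hi : E.WE (R ◁ i)) (k : ℤ) :
    Function.Bijective fun z : c.obj k ⟶ R => z ⊗ₘ i := by
  have e : (fun z : c.obj k ⟶ R => z ⊗ₘ i) =
      (fun g => g ≫ R ◁ i) ∘ fun z : c.obj k ⟶ R => z ▷ O := funext fun z =>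
        MonoidalCategory.tensorHom_def z i
  rw [e]
  exact Function.Bijective.comp (hO.cell c e₁ k _ hi)
    ⟨fun _ _ k => whiskerRight_inj O k, whiskerRight_surj O⟩

variable (hp : p.Prime) {f : A ⟶ V} {g : V ⟶ V'} {q : V' ⟶ A ⊗ S} (hc : D.Tri f g q)
include hp hc

/-- the first cone -/
theorem cy_one [IsInv O] (hi : E.WE (R ◁ i)) {y : O ⟶ A} (hy : E.WE (R ◁ y))
    (hf : y ≫ f = (p : ℤ) • i) : Cy Q 1 (i ≫ g) := by
  have t := D.whiskerLeft R hc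
  have bi := bij_tensor (c := c) e₁ hO hi
  have by' := bij_tensor (c := c) e₁ hO hy
  have k1 : ∀ {k : ℤ} (z : c.obj k ⟶ R), (z ⊗ₘ y) ≫ R ◁ f = ((p : ℤ) • z) ⊗ₘ i := fun z => by
    rw [tensorHom_comp_whiskerLeft, hf, tensor_zsmul, zsmul_tensor]
  have k2 : ∀ {k l : ℤ} (_ : k + 1 = l) (_ : ∀ z : c.obj k ⟶ R, (p : ℤ) • z = 0 → z = 0)
      (x : c.obj l ⊗ O ⟶ R ⊗ V'), ∃ z, x = z ⊗ₘ (i ≫ g) := fun {k l} hk tf x => by
    obtain ⟨ε, x', hx⟩ := exists_desusp (cellSucc c e₁ hk) (x ≫ R ◁ q ≫ (α_ _ _ _).inv)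
    obtain ⟨z, rfl⟩ := (by' k).2 x'
    have h1 : ((z ⊗ₘ y) ≫ R ◁ f) ▷ S = (0 : _ ⟶ _) ▷ S := by
      rw [← cancel_epi ε.hom, comp_whiskerRight, ← reassoc_of% hx, ← Category.assoc (R ◁ q),
        TriStr.comp₃ t]
      simp
    have h2 : z = 0 := tf z ((bi k).1 (((k1 z).symm.trans (whiskerRight_inj S h1)).trans
      (zero_tensor i).symm))
    obtain ⟨x, rfl⟩ := TriStr.co₃ t x (by
      rw [hx, h2]
      simp [zero_tensor])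
    obtain ⟨z, rfl⟩ := (bi l).2 x
    exact ⟨z, tensorHom_comp_whiskerLeft _ _ _⟩
  have k3 : ∀ {k : ℤ} (z : c.obj k ⟶ R), ((p : ℤ) • z) ⊗ₘ (i ≫ g) = 0 := fun z => by
    rw [← tensorHom_comp_whiskerLeft, ← k1, Category.assoc, TriStr.comp₁ t, comp_zero]
  refine ⟨fun n => k2 (k := 2 * (n - 1) + 1) (by ring) (Q.odd_tf _), fun n z => ?_, fun n x => ?_⟩
  · rw [Coef.mem_one_iff hp]
    refine ⟨fun k => ?_, fun ⟨w, k⟩ => k ▸ k3 w⟩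
    obtain ⟨x, hx⟩ := TriStr.co₂ t (z ⊗ₘ i) ((tensorHom_comp_whiskerLeft _ _ _).trans k)
    obtain ⟨w, rfl⟩ := (by' _).2 x
    exact ⟨w, (bi _).1 (hx.symm.trans (k1 w))⟩
  · obtain ⟨z, rfl⟩ := k2 rfl (Q.even_tf hp) x
    obtain ⟨w, rfl⟩ := Q.odd_div n z
    exact k3 w

/-- the further cones -/
theorem Cy.step (H : Cy Q h i) (hh : 1 ≤ h) (e : P ≅ c.obj (2 * ((p : ℤ) ^ h - 1)))
    {s : A ⟶ P ⊗ V} (hs : E.WE (R ◁ s)) {y : P ⊗ O ⟶ A} (hy : y ≫ s = P ◁ i) {x : P ⟶ R}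
    (hx : Q.IsV h x) (hf : (λ_ _).inv ≫ (η[R] ⊗ₘ (y ≫ f)) = x ⊗ₘ i) : Cy Q (h + 1) (i ≫ g) := by
  have t := D.whiskerLeft R hc
  have : IsInv P := IsInv.of_iso e.symm
  have b := fun k => hO.cell c e₁ k _ hs
  let ε : ∀ {k l : ℤ}, k + 2 * ((p : ℤ) ^ h - 1) = l → (c.obj l ≅ c.obj k ⊗ P) := fun h =>
    eqToIso (by rw [h]) ≪≫ (c.add _ _).symm ≪≫ whiskerLeftIso _ e.symm
  have k0 : ∀ {k l : ℤ} (a : c.obj l ≅ c.obj k ⊗ P) (u : c.obj l ⊗ O ⟶ R ⊗ A),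
      ∃ u' : c.obj k ⊗ O ⟶ R ⊗ V, u ≫ R ◁ s = a.hom ▷ O ≫ mid P u' := fun a u => by
    obtain ⟨u', hu⟩ := mid_surj (a.inv ▷ O ≫ u ≫ R ◁ s)
    exact ⟨u', by rw [hu, hom_inv_whiskerRight_assoc]⟩
  have k1 : ∀ (n : ℤ) (u : c.obj (2 * n + 1) ⊗ O ⟶ R ⊗ A), u = 0 := fun n u => by
    obtain ⟨u', hu⟩ := k0 (ε (k := 2 * (n - ((p : ℤ) ^ h - 1)) + 1) (by ring)) u
    refine (b _).inj ?_
    rw [hu, H.odd _ u']
    simp [mid]
  have k2 : ∀ {m n : ℤ} (a : c.obj (2 * n) ≅ c.obj (2 * m) ⊗ P) (w : c.obj (2 * m) ⟶ R),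
      (a.hom ▷ O ≫ (α_ _ _ _).hom ≫ (w ⊗ₘ y)) ≫ R ◁ s = a.hom ▷ O ≫ mid P (w ⊗ₘ i) := fun a w => by
    rw [mid_tensor, Category.assoc, Category.assoc, tensorHom_comp_whiskerLeft, hy]
  have k3 : ∀ {m n : ℤ} (a : c.obj (2 * n) ≅ c.obj (2 * m) ⊗ P) (u : c.obj (2 * n) ⊗ O ⟶ R ⊗ A),
      ∃ w : c.obj (2 * m) ⟶ R, u = a.hom ▷ O ≫ (α_ _ _ _).hom ≫ (w ⊗ₘ y) := fun a u => by
    obtain ⟨u', hu⟩ := k0 a u
    obtain ⟨w, rfl⟩ := H.surj _ u'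
    exact ⟨w, (b _).inj (hu.trans (k2 a w).symm)⟩
  have k4 : ∀ {m n : ℤ} (a : c.obj (2 * n) ≅ c.obj (2 * m) ⊗ P) (w : c.obj (2 * m) ⟶ R),
      (a.hom ▷ O ≫ (α_ _ _ _).hom ≫ (w ⊗ₘ y)) ≫ R ◁ f = (a.hom ≫ (w ⊗ₘ x) ≫ μ[R]) ⊗ₘ i :=
    fun a w => by
      rw [Category.assoc, Category.assoc, tensorHom_comp_whiskerLeft, tensor_det w x i _ hf,
        whiskerRight_comp_tensorHom]
  refine ⟨fun n u => ?_, fun n z => ?_, fun n u => ?_⟩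
  · obtain ⟨δ, u', hu⟩ := exists_desusp (cellSucc c e₁ (k := 2 * (n - 1) + 1) (by ring))
      (u ≫ R ◁ q ≫ (α_ _ _ _).inv)
    obtain ⟨u, rfl⟩ := TriStr.co₃ t u (by
      rw [hu, k1 _ u']
      simp)
    obtain ⟨z, rfl⟩ := H.surj n u
    exact ⟨z, tensorHom_comp_whiskerLeft _ _ _⟩
  · let a := ε (k := 2 * (n - ((p : ℤ) ^ h - 1))) (l := 2 * n) (by ring)
    rw [hx.mem_succ_iff hp hh (sub_add_cancel _ _) a, ← tensorHom_comp_whiskerLeft]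
    constructor
    · intro k
      obtain ⟨u, hu⟩ := TriStr.co₂ t _ k
      obtain ⟨w, rfl⟩ := k3 a u
      exact ⟨w, (H.ker _ _).1 (by rw [sub_tensor, ← k4, hu, sub_self])⟩
    · rintro ⟨w, k⟩
      rw [← H.ker, sub_tensor, sub_eq_zero] at k
      rw [k, ← k4, Category.assoc, TriStr.comp₁ t, comp_zero]
  · obtain ⟨δ, u', hu⟩ := exists_desusp (cellSucc c e₁ (k := 2 * n) rfl)
      (u ≫ R ◁ q ≫ (α_ _ _ _).inv)
    let a := ε (k := 2 * (n - ((p : ℤ) ^ h - 1))) (l := 2 * n) (by ring)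
    obtain ⟨w, hw⟩ := k3 a u'
    have h1 : (u' ≫ R ◁ f) ▷ S = (0 : _ ⟶ _) ▷ S := by
      rw [← cancel_epi δ.hom, comp_whiskerRight, ← reassoc_of% hu, ← Category.assoc (R ◁ q),
        TriStr.comp₃ t]
      simp
    have h2 := whiskerRight_inj S h1
    rw [hw, k4, H.ker] at h2
    have h3 : u' = 0 := (b _).inj (by
      rw [hw, k2, (H.ker _ _).2 (hx.reg hp hh (sub_add_cancel _ _) a w h2)]
      simp [mid])
    obtain ⟨u, rfl⟩ := TriStr.co₃ t u (by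
      rw [hu, h3]
      simp)
    rw [H.odd n u, zero_comp]

omit e₁ hO hc in
theorem Cy.ne_zero (H : Cy Q h i) (hh : 1 ≤ h) (e : P ≅ c.obj (2 * ((p : ℤ) ^ h - 1))) {x : P ⟶ R}
    (hx : Q.IsV h x) : x ⊗ₘ i ≠ 0 := fun k =>
  (hx.iso e.symm).not_mem hp hh ((H.ker _ _).1 (by
    rw [← whiskerRight_comp_tensorHom, k, comp_zero]))

omit e₁ hO hp hc in
theorem Coef.IsV.mem_succ {x : P ⟶ R} (hx : Q.IsV h x) : Q.Mem (h + 1) ((p : ℤ) ^ h - 1) x := by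
  obtain ⟨a, u, h1, -, h3⟩ := hx
  exact ⟨a, by simpa using add_mem (G.le_succ h h3) (zsmul_mem (G.v_mem h) u), h1⟩

omit e₁ hO hc in
theorem Coef.IsV.of_sub_mem (hh : 1 ≤ h) {x y : c.obj (2 * ((p : ℤ) ^ h - 1)) ⟶ R}
    (hy : Q.IsV h y) (k : Q.Mem h ((p : ℤ) ^ h - 1) (x - y)) : Q.IsV h x := by
  obtain ⟨a, u, h1, h2, h3⟩ := hy
  obtain ⟨a₁, a₂, k1, k2, l⟩ := Q.lin₂ _ x y
  have h4 : a₁ - a₂ ∈ G.I h := k.of_cl hp hh (by simpa [sub_eq_add_neg] using l 1 (-1))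
  obtain ⟨m, m', l1, l2, e⟩ := Q.uniq k2 h1
  obtain ⟨s, t, e1⟩ := exists_bezout hp l1
  refine ⟨a₁, s * (m' * u), k1, not_dvd_mul hp (fun d => ?_) (not_dvd_mul hp l2 h2), ?_⟩
  · have : (p : ℤ) ∣ 1 := e1 ▸ dvd_add (d.mul_right m) (dvd_mul_left _ t)
    exact hp.not_dvd_one (by exact_mod_cast this)
  · have e2 : ((s * m + t * p : ℤ) : A₀) = 1 := by rw [e1, Int.cast_one]
    have : a₁ - (s * (m' * u)) • G.v h =
        a₁ - a₂ + (s * m') • (a - u • G.v h) + (t • a₂) * p := by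
      simp only [zsmul_eq_mul] at e ⊢
      push_cast at e2 ⊢
      linear_combination (s : A₀) * e - a₂ * e2
    rw [this]
    exact add_mem (add_mem h4 (zsmul_mem h3 _)) (Ideal.mul_mem_left _ _ (G.p_mem hh))

omit e₁ hO hc in
/-- the detecting class is determined modulo `I h` -/
theorem Cy.isV (H : Cy Q h i) (hh : 1 ≤ h) (e : P ≅ c.obj (2 * ((p : ℤ) ^ h - 1))) {x y : P ⟶ R}
    (hy : Q.IsV h y) (k : x ⊗ₘ i = y ⊗ₘ i) : Q.IsV h x := by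
  have := ((hy.iso e.symm).of_sub_mem hp hh (x := e.inv ≫ x) ((H.ker _ _).1 (by
    rw [sub_tensor, ← whiskerRight_comp_tensorHom, k, whiskerRight_comp_tensorHom]
    exact sub_self _))).iso e
  rwa [e.hom_inv_id_assoc] at this

omit e₁ hO hp hc in
/-- the class `v h` dies at the next stage -/
theorem Cy.kill (H : Cy Q (h + 1) i) (e : P ≅ c.obj (2 * ((p : ℤ) ^ h - 1))) {x : P ⟶ R}
    (hx : Q.IsV h x) : x ⊗ₘ i = 0 := by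
  rw [← e.hom_inv_id_assoc x, ← whiskerRight_comp_tensorHom,
    (H.ker _ (e.inv ≫ x)).2 (hx.iso e.symm).mem_succ, comp_zero]

omit e₁ hO hp hc

variable (E R) in
/-- weak equivalences which remain so after tensoring with `R` -/
def Tests.WE₂ (φ : V ⟶ V') : Prop := E.WE φ ∧ E.WE (R ◁ φ)

theorem Tests.WE₂.of_isIso (φ : V ⟶ V') [IsIso φ] : E.WE₂ R φ := ⟨.of_isIso _, .of_isIso _⟩

theorem Tests.WE₂.comp {φ : A ⟶ V} {ψ : V ⟶ V'} (h : E.WE₂ R φ) (k : E.WE₂ R ψ) :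
    E.WE₂ R (φ ≫ ψ) :=
  ⟨h.1.comp k.1, MonoidalCategory.whiskerLeft_comp R φ ψ ▸ h.2.comp k.2⟩

variable (Q D E) in
/-- Towers up to weak equivalences whose attaching maps are detected by the `v h`. -/
inductive MTow (O : C) : ∀ (_ : ℕ) {V : C}, (O ⟶ V) → Prop
  | one {A V V' : C} {i : O ⟶ V} (hi : E.WE₂ R i) (y : O ⟶ A) (hy : E.WE₂ R y) {f : A ⟶ V}
      (hf : y ≫ f = (p : ℤ) • i) {g : V ⟶ V'} {q : V' ⟶ A ⊗ S} (hc : D.Tri f g q) :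
      MTow O 1 (i ≫ g)
  | comp {h : ℕ} {V V' : C} {i : O ⟶ V} (H : MTow O h i) (φ : V ⟶ V') (hφ : E.WE₂ R φ) :
      MTow O h (i ≫ φ)
  | of_comp {h : ℕ} {V V' : C} (i : O ⟶ V) (φ : V ⟶ V') (hφ : E.WE₂ R φ) (H : MTow O h (i ≫ φ)) :
      MTow O h i
  | succ {h : ℕ} {V V' P A : C} {i : O ⟶ V} (H : MTow O h i)
      (e : P ≅ c.obj (2 * ((p : ℤ) ^ h - 1))) (s : A ⟶ P ⊗ V) (hs : E.WE₂ R s) (y : P ⊗ O ⟶ A)
      (hy : y ≫ s = P ◁ i) (f : A ⟶ V) (x : P ⟶ R) (hx : Q.IsV h x)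
      (hf : (λ_ _).inv ≫ (η[R] ⊗ₘ (y ≫ f)) = x ⊗ₘ i) {g : V ⟶ V'} {q : V' ⟶ A ⊗ S}
      (hc : D.Tri f g q) : MTow O (h + 1) (i ≫ g)

include e₁ hO hp in
/-- The `R`-homology of a detected tower. -/
theorem MTow.cy [IsInv O] (H : MTow Q D E O h i) : 1 ≤ h ∧ Cy Q h i := by
  induction H with
  | one hi y hy hf hc => exact ⟨le_rfl, cy_one e₁ hO hp hc hi.2 hy.2 hf⟩
  | comp _ φ hφ ih => exact ⟨ih.1, (Cy.comp_iff e₁ hO hφ.2).2 ih.2⟩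
  | of_comp i φ hφ _ ih => exact ⟨ih.1, (Cy.comp_iff e₁ hO hφ.2).1 ih.2⟩
  | succ _ e s hs y hy f x hx hf hc ih =>
    exact ⟨Nat.le_add_left _ _, ih.2.step e₁ hO hp hc ih.1 e hs.2 hy hx hf⟩

variable (R) in
/-- Thom classes with values in `R` -/
def Thom (K : CMod C) : Prop :=
  ∀ n : ℕ, ∃ (Z : C) (b : 𝟙_ C ⟶ Z ⊗ TO K.G n (Fin n)) (θ : Z ⊗ TO K.G n (Fin (n + n)) ⟶ R),
    b ≫ Z ◁ TO.j K.G (I := Fin n) (J := Fin (n + n)) n (by simp) ≫ θ = η[R]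

theorem Thom.nz {K : CMod C} (h : Thom R K) {x : A ⟶ V} (hx : η[R] ⊗ₘ x ≠ 0) : K.NZ x :=
  fun n k => hx (by
    obtain ⟨Z, b, θ, e⟩ := h n
    rw [← e, ← Category.id_comp x, ← tensorHom_comp_tensorHom, ← Category.comp_id x,
      ← tensorHom_comp_tensorHom, ← id_tensorHom, ← Category.comp_id ((𝟙 Z ⊗ₘ _) ⊗ₘ x),
      ← (α_ _ _ _).hom_inv_id, associator_naturality_assoc, k]
    simp)

/-- A detected tower is a weak tower. -/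
theorem MTow.wTow {K : CMod C} {D : TriStr (K.G.obj RRF)} {E : Tests (K.G.obj RRF)}
    (e₁ : c.obj 1 ≅ K.G.obj RRF) (hO : E.Sm O) (hp : p.Prime) (hK : Thom R K) [IsInv O]
    (H : MTow Q D E O h i) : K.WTow D E p O h i := by
  induction H with
  | one hi y hy hf hc =>
    obtain ⟨Z, j, r, t⟩ := D.ex ((p : ℤ) • 𝟙 O)
    obtain ⟨φ, h1, h2⟩ := Tests.WE.cone t hc (by rw [hf, Preadditive.zsmul_comp, Category.id_comp])
      hy.1 hi.1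
    exact h1 ▸ (CMod.WTow.one t).comp φ h2
  | comp _ φ hφ ih => exact ih.comp φ hφ.1
  | of_comp i φ hφ _ ih => exact .of_comp i φ hφ.1 ih
  | @succ h _ _ _ _ _ H e s hs y hy f x hx hf _ _ hc ih =>
    obtain ⟨h1, h2⟩ := H.cy e₁ hO hp
    refine ih.succ (e ≪≫ eqToIso (congrArg c.obj ?_) ≪≫ cellPw c e₁ _ ≪≫ (K.sphPw _).symm) s hs.1
      y hy f (hK.nz fun k => h2.ne_zero hp h1 e hx (by rw [← hf, k, comp_zero])) hc
    push_cast [Nat.one_le_pow h p hp.pos]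
    rfl

end Vale.Agent.P257.L
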