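import Vale.Agent.P257.L.Defs

/-!
# P257, block LINK: finite cell spaces which represent objects and self maps

* `Md ι i φ` : `ι : Q ⟶ W` represents `i : 𝟙 ⟶ V` through `φ : G W ≅ V ⊗ G Q`;
* `Rp a φ f` : `a : P ⊗ W ⟶ W` represents `f : G P ⊗ V ⟶ V`.
-/

open CategoryTheory MonoidalCategory Limits Functor.LaxMonoidal Functor.OplaxMonoidal

universe v u

set_option linter.unusedSectionVars false

noncomputable section

namespace Vale.Agent.P257.L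

open Vale.Agent.P251 Vale.Agent.P251.G Vale.Agent.P251.G.LC Vale.Agent.P251.I Vale.Agent.P251.M

variable {C : Type u} [Category.{v} C] [Preadditive C] [MonoidalCategory C]
  [SymmetricCategory C] [MonoidalPreadditive C]

theorem zsmul_wR {A B : C} (m : ℤ) (f : A ⟶ B) (W : C) : (m • f) ▷ W = m • f ▷ W :=
  (tensorRight W).map_zsmul (r := m) (f := f)

theorem zsmul_wL (W : C) {A B : C} (m : ℤ) (f : A ⟶ B) : W ◁ (m • f) = m • W ◁ f :=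
  (tensorLeft W).map_zsmul (r := m) (f := f)

theorem isIso_zsmul {m : ℤ} (h : IsIso (m • 𝟙 (𝟙_ C))) (A : C) : IsIso (m • 𝟙 A) := by
  have e : m • 𝟙 A = (λ_ A).inv ≫ (m • 𝟙 (𝟙_ C)) ▷ A ≫ (λ_ A).hom := by
    rw [zsmul_wR, id_whiskerRight, Preadditive.zsmul_comp, Category.id_comp,
      Preadditive.comp_zsmul, Iso.inv_hom_id]
  rw [e]
  infer_instance

theorem isIso_zsmul_mul {m n : ℤ} (h : IsIso (m • 𝟙 (𝟙_ C))) (h' : IsIso (n • 𝟙 (𝟙_ C))) :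
    IsIso ((m * n) • 𝟙 (𝟙_ C)) := by
  have e : (m * n) • 𝟙 (𝟙_ C) = (m • 𝟙 (𝟙_ C)) ≫ (n • 𝟙 (𝟙_ C)) := by
    rw [Preadditive.zsmul_comp, Category.id_comp, smul_smul]
  rw [e]
  infer_instance

theorem eq_zero_of_zsmul {m : ℤ} (h : IsIso (m • 𝟙 (𝟙_ C))) {A B : C} {f : A ⟶ B}
    (hf : m • f = 0) : f = 0 := by
  have := isIso_zsmul h A
  rw [← cancel_epi (m • 𝟙 A), Preadditive.zsmul_comp, Category.id_comp, hf, comp_zero]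

theorem aux_md {V Q R : C} (i : 𝟙_ C ⟶ V) :
    ((λ_ Q).inv ≫ i ▷ Q) ▷ R ≫ (α_ V Q R).hom = (λ_ (Q ⊗ R)).inv ≫ i ▷ (Q ⊗ R) := by
  simp

theorem aux_bottom {P V Q : C} (i : 𝟙_ C ⟶ V) (f : P ⊗ V ⟶ V) :
    P ◁ ((λ_ Q).inv ≫ i ▷ Q) ≫ (α_ P V Q).inv ≫ f ▷ Q = ((ρ_ P).inv ≫ P ◁ i ≫ f) ▷ Q := by
  simp

theorem aux_rp {P V Q R W S : C} (φ : W ⟶ V ⊗ Q) (f : P ⊗ V ⟶ V) (m : Q ⊗ R ⟶ S) :
    (P ◁ φ ≫ (α_ P V Q).inv ≫ f ▷ Q) ▷ R ≫ (α_ V Q R).hom ≫ V ◁ m =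
      (α_ P W R).hom ≫ P ◁ (φ ▷ R ≫ (α_ V Q R).hom ≫ V ◁ m) ≫ (α_ P V S).inv ≫ f ▷ S := by
  simp only [comp_whiskerRight, MonoidalCategory.whiskerLeft_comp, Category.assoc]
  rw [associator_naturality_left_assoc, ← whisker_exchange, associator_inv_naturality_right_assoc]
  simp

namespace CMod

variable (K : CMod C)

/-- `ι` represents `i` -/
def Md {Q W : FCat} (ι : Q ⟶ W) {V : C} (i : 𝟙_ C ⟶ V) (φ : K.G.obj W ≅ V ⊗ K.G.obj Q) : Prop :=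
  K.G.map ι ≫ φ.hom = (λ_ _).inv ≫ i ▷ K.G.obj Q

/-- `a` represents `f` -/
def Rp {P Q W : FCat} (a : P ⊗ W ⟶ W) {V : C} (φ : K.G.obj W ≅ V ⊗ K.G.obj Q)
    (f : K.G.obj P ⊗ V ⟶ V) : Prop :=
  μ K.G P W ≫ K.G.map a ≫ φ.hom = K.G.obj P ◁ φ.hom ≫ (α_ _ _ _).inv ≫ f ▷ K.G.obj Q

/-- the product of a representation with a space -/
def susp {Q W : FCat} {V : C} (φ : K.G.obj W ≅ V ⊗ K.G.obj Q) (R : FCat) :
    K.G.obj (W ⊗ R) ≅ V ⊗ K.G.obj (Q ⊗ R) :=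
  (Functor.Monoidal.μIso K.G W R).symm ≪≫ whiskerRightIso φ (K.G.obj R) ≪≫ α_ _ _ _ ≪≫
    whiskerLeftIso V (Functor.Monoidal.μIso K.G Q R)

variable {K}

@[reassoc]
theorem μ_susp {Q W : FCat} {V : C} (φ : K.G.obj W ≅ V ⊗ K.G.obj Q) (R : FCat) :
    μ K.G W R ≫ (K.susp φ R).hom =
      φ.hom ▷ K.G.obj R ≫ (α_ _ _ _).hom ≫ V ◁ μ K.G Q R := by
  simp [susp]

theorem Md.susp {Q W : FCat} {ι : Q ⟶ W} {V : C} {i : 𝟙_ C ⟶ V}
    {φ : K.G.obj W ≅ V ⊗ K.G.obj Q} (h : K.Md ι i φ) (R : FCat) :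
    K.Md (ι ▷ R) i (K.susp φ R) := by
  rw [Md, ← cancel_epi (μ K.G Q R), ← μ_natural_left_assoc, μ_susp, ← comp_whiskerRight_assoc, h,
    reassoc_of% (aux_md i), leftUnitor_inv_naturality_assoc, whisker_exchange]

theorem Rp.susp {P Q W : FCat} {a : P ⊗ W ⟶ W} {V : C} {φ : K.G.obj W ≅ V ⊗ K.G.obj Q}
    {f : K.G.obj P ⊗ V ⟶ V} (h : K.Rp a φ f) (R : FCat) :
    K.Rp ((α_ P W R).inv ≫ a ▷ R) (K.susp φ R) f := by
  rw [Rp, ← cancel_epi (K.G.obj P ◁ μ K.G W R), ← cancel_epi (α_ _ _ _).hom, Functor.map_comp,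
    Category.assoc, ← Functor.LaxMonoidal.associativity_assoc, ← Functor.map_comp_assoc, Iso.hom_inv_id,
    K.G.map_id, Category.id_comp, ← μ_natural_left_assoc, μ_susp, ← comp_whiskerRight_assoc,
    ← comp_whiskerRight_assoc, Category.assoc, h, ← MonoidalCategory.whiskerLeft_comp_assoc,
    μ_susp, aux_rp]

theorem Rp.zsmul {P Q W : FCat} {a a' : P ⊗ W ⟶ W} {V : C} {φ : K.G.obj W ≅ V ⊗ K.G.obj Q}
    {f : K.G.obj P ⊗ V ⟶ V} (h : K.Rp a φ f) (c : ℤ) (ha : K.G.map a' = c • K.G.map a) :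
    K.Rp a' φ (c • f) := by
  rw [Rp, ha, Preadditive.zsmul_comp, Preadditive.comp_zsmul, h, zsmul_wR, Preadditive.comp_zsmul,
    Preadditive.comp_zsmul]

theorem map_wL_mfold (W : FCat) (m : ℕ) :
    K.G.map (W ◁ (FCat.hom (G.LC.mfold m) : RRF ⟶ RRF)) = (m : ℤ) • 𝟙 _ := by
  rw [← cancel_epi (μ K.G W RRF), ← μ_natural_right, K.mfold, zsmul_wL, Preadditive.zsmul_comp,
    Preadditive.comp_zsmul]
  simp

/-- the suspension of `a` multiplied by `m` -/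
def mulSusp {P W : FCat} (a : P ⊗ W ⟶ W) (m : ℕ) : P ⊗ (W ⊗ RRF) ⟶ W ⊗ RRF :=
  ((α_ P W RRF).inv ≫ a ▷ RRF) ≫ W ◁ (FCat.hom (G.LC.mfold m) : RRF ⟶ RRF)

theorem Rp.mulSusp {P Q W : FCat} {a : P ⊗ W ⟶ W} {V : C} {φ : K.G.obj W ≅ V ⊗ K.G.obj Q}
    {f : K.G.obj P ⊗ V ⟶ V} (h : K.Rp a φ f) (m : ℕ) :
    K.Rp (mulSusp a m) (K.susp φ RRF) ((m : ℤ) • f) := by
  refine (h.susp RRF).zsmul m ?_
  rw [CMod.mulSusp, Functor.map_comp, map_wL_mfold, Preadditive.comp_zsmul, Category.comp_id]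

/-- Every map of spaces represents a self map. -/
theorem exists_rp {P Q W : FCat} [IsInv (K.G.obj Q)] (a : P ⊗ W ⟶ W) {V : C}
    (φ : K.G.obj W ≅ V ⊗ K.G.obj Q) : ∃ f : K.G.obj P ⊗ V ⟶ V, K.Rp a φ f := by
  obtain ⟨f, hf⟩ := whiskerRight_surj (K.G.obj Q) (Y := K.G.obj P ⊗ V) (Z := V)
    ((α_ _ _ _).hom ≫ K.G.obj P ◁ φ.inv ≫ μ K.G P W ≫ K.G.map a ≫ φ.hom)
  refine ⟨f, ?_⟩
  rw [Rp, hf, Iso.inv_hom_id_assoc, ← MonoidalCategory.whiskerLeft_comp_assoc, Iso.hom_inv_id,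
    MonoidalCategory.whiskerLeft_id, Category.id_comp]

/-- The mapping cone represents the cone. -/
theorem Rp.cone {P Q W : FCat} {a : P ⊗ W ⟶ W} {V V' : C} {φ : K.G.obj W ≅ V ⊗ K.G.obj Q}
    {f : K.G.obj P ⊗ V ⟶ V} (h : K.Rp a φ f) {g : V ⟶ V'} (hc : K.Cn f g) {ι : Q ⟶ W}
    {i : 𝟙_ C ⟶ V} (hι : K.Md ι i φ) :
    ∃ φ' : K.G.obj (coneF a) ≅ V' ⊗ K.G.obj Q, K.Md (ι ≫ coneInrF a) (i ≫ g) φ' := by
  have h1 : K.Cn (K.G.map a) (φ.hom ≫ g ▷ K.G.obj Q) := by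
    refine K.cn_iso (α_ _ _ _ ≪≫ whiskerLeftIso _ φ.symm ≪≫ Functor.Monoidal.μIso K.G P W)
      φ.symm (Iso.refl _) ?_ (by simp) (K.cn_whisker Q hc)
    rw [Iso.symm_hom, Iso.comp_inv_eq]
    simp only [Iso.trans_hom, whiskerLeftIso_hom, Iso.symm_hom, Functor.Monoidal.μIso_hom,
      Category.assoc]
    rw [h, ← MonoidalCategory.whiskerLeft_comp_assoc, Iso.inv_hom_id,
      MonoidalCategory.whiskerLeft_id, Category.id_comp, Iso.hom_inv_id_assoc]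
  obtain ⟨e, he⟩ := K.cn_uniq (K.cn_cone a) h1
  refine ⟨e, ?_⟩
  rw [Md, Functor.map_comp, Category.assoc, he, reassoc_of% hι, comp_whiskerRight]

/-- The restriction to the bottom cell. -/
theorem Rp.bottom {P Q W : FCat} {a : P ⊗ W ⟶ W} {V : C} {φ : K.G.obj W ≅ V ⊗ K.G.obj Q}
    {f : K.G.obj P ⊗ V ⟶ V} (h : K.Rp a φ f) {ι : Q ⟶ W} {i : 𝟙_ C ⟶ V} (hι : K.Md ι i φ) :
    μ K.G P Q ≫ K.G.map (P ◁ ι ≫ a) ≫ φ.hom =
      ((ρ_ _).inv ≫ K.G.obj P ◁ i ≫ f) ▷ K.G.obj Q := by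
  rw [Functor.map_comp, Category.assoc, ← μ_natural_right_assoc, h,
    ← MonoidalCategory.whiskerLeft_comp_assoc, hι, aux_bottom]

theorem map_tensor_eq_zero_iff {P Q W B B' : FCat} [IsInv (K.G.obj Q)] {y : P ⊗ Q ⟶ W} {V : C}
    {φ : K.G.obj W ≅ V ⊗ K.G.obj Q} {x : K.G.obj P ⟶ V}
    (h : μ K.G P Q ≫ K.G.map y ≫ φ.hom = x ▷ K.G.obj Q) (b : B ⟶ B') :
    K.G.map (b ⊗ₘ y) = 0 ↔ K.G.map b ⊗ₘ x = 0 := by
  have e : (α_ _ _ _).hom ≫ K.G.obj B ◁ μ K.G P Q ≫ μ K.G B (P ⊗ Q) ≫ K.G.map (b ⊗ₘ y) ≫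
      δ K.G B' W ≫ K.G.obj B' ◁ φ.hom ≫ (α_ _ _ _).inv = (K.G.map b ⊗ₘ x) ▷ K.G.obj Q := by
    rw [← μ_natural_assoc, Functor.Monoidal.μ_δ_assoc, tensorHom_def', Category.assoc,
      ← whisker_exchange_assoc, ← MonoidalCategory.whiskerLeft_comp_assoc,
      ← MonoidalCategory.whiskerLeft_comp_assoc, Category.assoc, h, tensorHom_def']
    simp
  constructor
  · intro h0
    apply whiskerRight_inj (K.G.obj Q)
    rw [← e, h0, MonoidalPreadditive.zero_whiskerRight]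
    simp
  · intro h0
    rw [h0, MonoidalPreadditive.zero_whiskerRight] at e
    simpa [Preadditive.IsIso.comp_left_eq_zero, Preadditive.IsIso.comp_right_eq_zero] using e

theorem map_eq_zero_of_stable {X Y : FCat} {a : X ⟶ Y} {n : ℕ}
    (h : Homotopic (a.hom ▷ Sph n) ((0 : X.obj ⟶ Y.obj) ▷ Sph n)) : K.G.map a = 0 := by
  have h1 : K.G.map (a ▷ SphF n) = K.G.map ((FCat.hom 0 : X ⟶ Y) ▷ SphF n) := K.map_eq _ _ h
  apply whiskerRight_inj (K.G.obj (SphF n))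
  rw [← cancel_mono (μ K.G Y (SphF n)), μ_natural_left, h1, ← μ_natural_left,
    K.map_zero (FCat.hom 0) rfl]

theorem cn_zsmul {A B Z : C} {f : A ⟶ B} {g : B ⟶ Z} (h : K.Cn f g) {c : ℤ}
    (hc : IsIso (c • 𝟙 (𝟙_ C))) : K.Cn (c • f) g := by
  have := isIso_zsmul hc A
  refine K.cn_iso (asIso (c • 𝟙 A)).symm (Iso.refl _) (Iso.refl _) ?_ (by simp) h
  rw [Iso.symm_hom, Iso.eq_inv_comp]
  simp

/-- The Moore space represents the cone of `p`. -/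
theorem exists_md_one (p : ℕ) {Z : C} {i : 𝟙_ C ⟶ Z} (h : K.Cn ((p : ℤ) • 𝟙 (𝟙_ C)) i) :
    ∃ φ : K.G.obj (coneF (FCat.hom (G.LC.mfold p) : RRF ⟶ RRF)) ≅ Z ⊗ K.G.obj RRF,
      K.Md (coneInrF _) i φ := by
  have h1 : K.Cn (K.G.map (FCat.hom (G.LC.mfold p) : RRF ⟶ RRF))
      ((λ_ _).inv ≫ i ▷ K.G.obj RRF) := by
    refine K.cn_iso (λ_ _) (λ_ _) (Iso.refl _) ?_ ?_ (K.cn_whisker RRF h)
    · rw [K.mfold, zsmul_wR, id_whiskerRight, Preadditive.zsmul_comp, Preadditive.comp_zsmul,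
        Category.id_comp, Category.comp_id]
    · rw [Iso.hom_inv_id_assoc, Iso.refl_hom, Category.comp_id]
  exact K.cn_uniq (K.cn_cone _) h1

end CMod

/-- Every self map is represented, up to an invertible integer. -/
theorem Model.exists_rp {p : ℕ} (K : Model p C) {P Q W : FCat} {V : C}
    (φ : K.G.obj W ≅ V ⊗ K.G.obj Q) (f : K.G.obj P ⊗ V ⟶ V) :
    ∃ (n : ℕ) (a : P ⊗ (W ⊗ SphF n) ⟶ W ⊗ SphF n) (c : ℤ), IsIso (c • 𝟙 (𝟙_ C)) ∧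
      K.toCMod.Rp a (K.toCMod.susp φ (SphF n)) (c • f) := by
  obtain ⟨n, a, c, hc, ha⟩ := K.full (δ K.G P W ≫ K.G.obj P ◁ φ.hom ≫ (α_ _ _ _).inv ≫
    f ▷ K.G.obj Q ≫ φ.inv)
  refine ⟨n, (α_ P W (SphF n)).inv ≫ a, c, hc, ?_⟩
  rw [CMod.Rp, ← cancel_epi (K.G.obj P ◁ μ K.G W (SphF n)), ← cancel_epi (α_ _ _ _).hom,
    Functor.map_comp, Category.assoc, ← Functor.LaxMonoidal.associativity_assoc, ← Functor.map_comp_assoc,
    Iso.hom_inv_id, K.G.map_id, Category.id_comp, reassoc_of% ha, Preadditive.zsmul_comp,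
    Preadditive.comp_zsmul, Category.assoc, CMod.μ_susp, zsmul_wR,
    ← MonoidalCategory.whiskerLeft_comp_assoc, CMod.μ_susp]
  simp only [Preadditive.comp_zsmul]
  congr 1
  rw [← comp_whiskerRight_assoc, ← comp_whiskerRight_assoc, ← aux_rp]
  simp only [Functor.Monoidal.μ_δ_assoc, Category.assoc, Iso.inv_hom_id, Category.comp_id]

end Vale.Agent.P257.L
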