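import Vale.Agent.P257.L.Rep
import Vale.Agent.P257.L.Inv
import Vale.Agent.P251.M.MUFinal
import Vale.Agent.P251.M.PiZero

/-!
# P257, block LINK: a suspension spectrum functor as a `CMod`; finite Thom stages

* `cmodT F : CMod T`, the cone sequences are the distinguished triangles;
* `hur_ne_zero` : if `(cmodT F).NZ x` then the image of `x` in `MU ⊗ V` is not zero;
* `nz_transfer` : `NZ` can be transported along a map of spaces.
-/

open CategoryTheory MonoidalCategory Limits Pretriangulated MonObj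

universe v u v' u'

set_option linter.unusedSectionVars false

noncomputable section

namespace Vale.Agent.P257.L

open Vale.Agent.P251 Vale.Agent.P251.G Vale.Agent.P251.G.LC Vale.Agent.P251.I Vale.Agent.P251.M
  Vale.Agent.P251.T Vale.Agent.P251.S

variable {T : Type u} [Category.{v} T] [Preadditive T] [HasZeroObject T]
    [HasShift T ℤ] [∀ n : ℤ, (shiftFunctor T n).Additive] [Pretriangulated T] [IsTriangulated T]
    [MonoidalCategory T] [SymmetricCategory T] [TensorTriangulated T] [MonoidalClosed T]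
    [HasCoproducts.{0} T] [HasProducts.{0} T] [StableCat T]

/-- A suspension spectrum functor as a category with spaces and cones. -/
def cmodT (F : SpaceFunctor T) : CMod T where
  G := F.S
  map_eq := F.map_eq
  map_zero := F.map_zero
  inv := IsInv.of_inverse (L' := (𝟙_ T)⟦(-1 : ℤ)⟧) (whiskerRightIso F.line _ ≪≫
    tensorUnitShiftIso _ (-1) ≪≫ shiftShiftNeg (𝟙_ T) (1 : ℤ))
  mfold := S_mfold F
  Cn f g := ∃ δ, Triangle.mk f g δ ∈ distTriang T
  cn_iso a b z h1 h2 := fun ⟨_, hδ⟩ => exists_dist_of_iso hδ a b z h1 h2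
  cn_whisker {A B Z f g} X := fun ⟨_, hδ⟩ => by
    exact exists_dist_of_iso (dist_tensor hδ (F.S.obj X)) (β_ _ A) (β_ _ B) (β_ _ Z)
      (BraidedCategory.braiding_naturality_right _ _)
      (BraidedCategory.braiding_naturality_right _ _)
  cn_cone f := ⟨_, F.cone_distinguished f⟩
  cn_uniq {A B Z Z' f g g'} := fun ⟨δ, hδ⟩ ⟨δ', hδ'⟩ => by
    obtain ⟨e, -, h2⟩ := exists_iso_of_arrow_iso _ _ hδ hδ' (Iso.refl _)
    refine ⟨Triangle.π₃.mapIso e, ?_⟩
    have h3 := e.hom.comm₂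
    rw [h2] at h3
    exact h3.trans (Category.id_comp _)

theorem aux_zero {S B B' U A V : T} (b : S ⟶ B) (_ : IsIso b) (j : B ⟶ B') (θ : B' ⟶ U ⊗ S)
    (_ : IsIso θ) (w : 𝟙_ T ⟶ U) (x : A ⟶ V) (h : b ≫ j ≫ θ = (λ_ S).inv ≫ w ▷ S) (h0 : w ⊗ₘ x = 0) :
    j ⊗ₘ x = 0 := by
  have h1 : (((λ_ S).inv ≫ w ▷ S) ⊗ₘ x) ≫ (β_ U S).hom ▷ V ≫
      (α_ S U V).hom = (ρ_ S).inv ▷ A ≫ (α_ S _ A).hom ≫ S ◁ (w ⊗ₘ x) := by
    rw [MonoidalCategory.tensorHom_def, MonoidalCategory.tensorHom_def, Category.assoc,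
      whisker_exchange_assoc, ← comp_whiskerRight_assoc, Category.assoc,
      BraidedCategory.braiding_naturality_left]
    simp
  rw [h0, MonoidalPreadditive.whiskerLeft_zero, comp_zero, comp_zero, ← h, ← Category.assoc,
    Preadditive.IsIso.comp_right_eq_zero, Preadditive.IsIso.comp_right_eq_zero] at h1
  have h2 : b ▷ A ≫ (j ⊗ₘ x) ≫ θ ▷ V = 0 := by
    rw [← h1, ← tensorHom_id, ← tensorHom_id, tensorHom_comp_tensorHom, tensorHom_comp_tensorHom,
      Category.id_comp, Category.comp_id]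
  rwa [Preadditive.IsIso.comp_left_eq_zero, Preadditive.IsIso.comp_right_eq_zero] at h2

variable {F : SpaceFunctor T} {e : F.S.obj CCF ≅ (stdEven T).L}

/-- The Hurewicz image vanishes at a finite stage. -/
theorem hur_ne_zero (M : MUMon F (stdEven T) e) {A V : T} (hA : P251.M.IsCpt A) {x : A ⟶ V}
    (hx : (cmodT F).NZ x) : x ≫ unitMap (Am M.R 1) V ≠ 0 := by
  intro h0
  have h1 : (x ≫ (λ_ V).inv ≫ (seqMU F (stdEven T) e).one ▷ V) ≫ M.ι 0 ▷ V = 0 := by
    have h2 := congrArg (· ≫ amOne M.R ▷ V) h0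
    simp only [Category.assoc, zero_comp] at h2
    rw [H314.unitMap_whiskerRight] at h2
    rw [Category.assoc, Category.assoc, ← comp_whiskerRight, M.telMon.one]
    exact h2
  obtain ⟨m, hm, h3⟩ := M.tel.whiskerRight_eq_zero V hA _ h1
  let R := thomSys F (stdEven T) e
  have h4 : x ≫ (λ_ V).inv ≫ R.ua m ▷ V = 0 := by
    rw [← R.one_map m, comp_whiskerRight]
    simpa only [Category.assoc] using h3
  have h5 : R.ua m ⊗ₘ x = 0 := by
    rw [tensorHom_def', ← cancel_epi (λ_ A).inv, ← leftUnitor_inv_naturality_assoc, h4, comp_zero]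
  have h6 : R.b m ≫ TO.j F.S (I := Fin m) (J := Fin (m + m)) m (by simp) ≫
      thomθ F (stdEven T) e (n := m) (N := m + m) (a := m) le_rfl le_rfl =
      (λ_ _).inv ≫ R.ua m ▷ (stdEven T).S m := by
    have h7 := (thetaData F (stdEven T) e).θ_j (n := m) (N := m) (N' := m + m) (a := m)
      (by omega) le_rfl (by omega) le_rfl
    exact (congrArg (R.b m ≫ ·) h7).trans (R.b_θ le_rfl (by omega))
  exact hx m (aux_zero _ (isIso_b_thomSys F (stdEven T) e m) _ _
    (isIso_thomθ F (stdEven T) e m) (R.ua m) x h6 h5)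

variable {C : Type u'} [Category.{v'} C] [Preadditive C] [MonoidalCategory C]
  [SymmetricCategory C] [MonoidalPreadditive C]

/-- Null maps of `T` are null in every category with spaces. -/
theorem map_eq_zero_of_T (K : CMod C) (F : SpaceFunctor T) {X Y : FCat} {a : X ⟶ Y}
    (h : F.S.map a = 0) : K.G.map a = 0 := by
  obtain ⟨n, hn⟩ := F.faithful a (FCat.hom 0) (h.trans (F.map_zero _ rfl).symm)
  exact CMod.map_eq_zero_of_stable hn

/-- Transport of `NZ`. -/
theorem nz_transfer (K : CMod C) (F : SpaceFunctor T) {P Q W : FCat} [IsInv (K.G.obj Q)]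
    [IsInv ((cmodT F).G.obj Q)] {y : P ⊗ Q ⟶ W} {V : C} {φ : K.G.obj W ≅ V ⊗ K.G.obj Q}
    {x : K.G.obj P ⟶ V} (h : Functor.LaxMonoidal.μ K.G P Q ≫ K.G.map y ≫ φ.hom = x ▷ K.G.obj Q) {V' : T}
    {ψ : (cmodT F).G.obj W ≅ V' ⊗ (cmodT F).G.obj Q} {x' : (cmodT F).G.obj P ⟶ V'}
    (h' : Functor.LaxMonoidal.μ (cmodT F).G P Q ≫ (cmodT F).G.map y ≫ ψ.hom =
      x' ▷ (cmodT F).G.obj Q)
    (hx : K.NZ x) : (cmodT F).NZ x' := by
  intro n h0
  apply hx n
  exact (CMod.map_tensor_eq_zero_iff h _).1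
    (map_eq_zero_of_T K F ((CMod.map_tensor_eq_zero_iff h' _).2 h0))

end Vale.Agent.P257.L
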